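import Vale.Agent.P011.H704.R6.Main
import Vale.Agent.P011.H519.R2Spec

/-!
The theorem on commutators of quaternions in the letters of the rank two text.
-/

namespace Vale.Agent.P011.H704.R6

open Vale.Agent.P011.MPQ Vale.Agent.P011.H738 Vale.Agent.P011.H271
open Vale.Agent.P011.Arith (NF)
open Vale.Agent.P011.H63.FB (LSF iuF)

theorem ramF_iff {F : Type} [Field F] [GFF F] (h2 : (2 : F) ≠ 0) (a b : Fˣ) (v : Place F) :
    RamF a b v ↔ b ∉ NF a ⊔ LSF v := by
  rw [RamF, not_iff_not, ← H63.FB.mem_LN_iff v h2 a b]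
  constructor
  · rintro ⟨x, y, h⟩
    exact ⟨x, y, h.symm⟩
  · rintro ⟨x, y, h⟩
    exact ⟨x, y, h.symm⟩

/-- **R6.** -/
theorem mPabF : H519.R2.MPabF := by
  intro F _ _ h2 a b hA g h
  exact mp_ab h2 hA g fun v hv => h v ((ramF_iff h2 a b v).mp hv)

end Vale.Agent.P011.H704.R6
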