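import Vale.Agent.P011.H704.R6.Conj
import Vale.Agent.P011.H929.FFq

/-!
Weak approximation for the pure quaternions with a given square.
-/

open Topology

set_option linter.unusedSectionVars false

namespace Vale.Agent.P011.H704.R6

open Vale.Agent.P011.MPQ Vale.Agent.P011.H738 Vale.Agent.P011.H271

section cont

variable {L : Type} [NormedField L] {a b : Lˣ}

/-- The coordinates. -/
def mk4 (a b : Lˣ) (t : L × L × L × L) : Qt a b := ⟨t.1, t.2.1, t.2.2.1, t.2.2.2⟩

theorem cont_nrd : Continuous fun t : L × L × L × L => nrd (mk4 a b t) := by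
  unfold nrd mk4
  fun_prop

theorem cont_num (p : Qt a b) :
    Continuous fun t : L × L × L × L => (mk4 a b t * p * cj (mk4 a b t)).imI := by
  have h : (fun t : L × L × L × L => (mk4 a b t * p * cj (mk4 a b t)).imI) = fun t =>
      (((a : Lˣ) : L) * 0 + (t.1 * p.re + a * (t.2.1 * p.imI) + b * (t.2.2.1 * p.imJ) -
        a * b * (t.2.2.2 * p.imK))) * (-t.2.1) +
      (t.1 * p.imI + t.2.1 * p.re - b * (t.2.2.1 * p.imK) + b * (t.2.2.2 * p.imJ)) * t.1 -
      b * (t.1 * p.imJ + a * (t.2.1 * p.imK) + t.2.2.1 * p.re - a * (t.2.2.2 * p.imI)) *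
        (-t.2.2.2) +
      b * (t.1 * p.imK + t.2.1 * p.imJ - t.2.2.1 * p.imI + t.2.2.2 * p.re) * (-t.2.2.1) := by
    funext t
    simp only [mk4, cj, QuaternionAlgebra.imI_mul, QuaternionAlgebra.re_mul,
      QuaternionAlgebra.imJ_mul, QuaternionAlgebra.imK_mul]
    ring
  rw [h]
  fun_prop

/-- The second coordinate of the conjugate depends continuously on the conjugating element. -/
theorem cI_near (p G : Qt a b) (hG : nrd G ≠ 0) {ε : ℝ} (hε : 0 < ε) :
    ∃ η : ℝ, 0 < η ∧ ∀ t : Qt a b, ‖t.re - G.re‖ < η → ‖t.imI - G.imI‖ < η →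
      ‖t.imJ - G.imJ‖ < η → ‖t.imK - G.imK‖ < η → nrd t ≠ 0 ∧ ‖cI p t - cI p G‖ < ε := by
  let x0 : L × L × L × L := (G.re, G.imI, G.imJ, G.imK)
  have e0 : mk4 a b x0 = G := rfl
  have h1 : ContinuousAt (fun t : L × L × L × L => cI p (mk4 a b t)) x0 :=
    ((cont_num p).continuousAt).div cont_nrd.continuousAt (by rw [e0]; exact hG)
  have h2 : ∀ᶠ t in 𝓝 x0, nrd (mk4 a b t) ≠ 0 :=
    cont_nrd.continuousAt.eventually_ne (by rw [e0]; exact hG)
  have h3 : ∀ᶠ t in 𝓝 x0, ‖cI p (mk4 a b t) - cI p G‖ < ε := by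
    have h4 := Metric.tendsto_nhds.mp h1 ε hε
    filter_upwards [h4] with t ht
    rwa [dist_eq_norm, e0] at ht
  obtain ⟨η, hη, h5⟩ := Metric.eventually_nhds_iff.mp (h2.and h3)
  refine ⟨η, hη, fun t h6 h7 h8 h9 => ?_⟩
  have h10 : dist (t.re, t.imI, t.imJ, t.imK) x0 < η := by
    rw [Prod.dist_eq, Prod.dist_eq, Prod.dist_eq, dist_eq_norm, dist_eq_norm, dist_eq_norm,
      dist_eq_norm]
    exact max_lt h6 (max_lt h7 (max_lt h8 h9))
  exact h5 h10

end cont

section map

variable {F L : Type} [Field F] [Field L] [Algebra F L] {a b : Fˣ}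

/-- The image of a unit in an extension. -/
abbrev up (L : Type) [Field L] [Algebra F L] (a : Fˣ) : Lˣ := Units.map (algebraMap F L : F →* L) a

/-- The image of a quaternion over an extension. -/
def mapQ (L : Type) [Field L] [Algebra F L] (g : Qt a b) : Qt (up L a) (up L b) :=
  ⟨algebraMap F L g.re, algebraMap F L g.imI, algebraMap F L g.imJ, algebraMap F L g.imK⟩

theorem nrd_mapQ (g : Qt a b) : nrd (mapQ L g) = algebraMap F L (nrd g) := by
  simp only [nrd, mapQ, map_sub, map_add, map_mul, map_pow, Units.coe_map, MonoidHom.coe_coe]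

theorem cI_mapQ (p g : Qt a b) : cI (mapQ L p) (mapQ L g) = algebraMap F L (cI p g) := by
  unfold cI
  rw [nrd_mapQ, map_div₀]
  congr 1
  simp only [QuaternionAlgebra.imI_mul, QuaternionAlgebra.re_mul,
    QuaternionAlgebra.imJ_mul, QuaternionAlgebra.imK_mul, map_add, map_sub, map_mul]
  simp only [mapQ, cj, map_neg, map_zero]
  rfl

end map

section places

variable {F : Type} [Field F]

theorem place_eq_of_isEquiv {v w : Place F} (h : v.abv.IsEquiv w.abv) : v = w := by
  refine toPl_injective (Subtype.ext ?_)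
  ext x
  change plV v x ≤ 1 ↔ plV w x ≤ 1
  rw [plV_le_one, plV_le_one]
  have := h x 1
  rwa [map_one, map_one] at this

theorem place_nontrivial (v : Place F) : v.abv.IsNontrivial := by
  obtain ⟨x, hx⟩ := v.normalized.2.1
  have hx' : v.abv x = qq v := hx
  refine ⟨x, ?_, ?_⟩
  · rintro rfl
    rw [map_zero] at hx'
    exact (qq_pos v).ne hx'
  · rw [hx']
    exact (one_lt_qq' v).ne'

/-- Weak approximation. -/
theorem place_weak (S : Finset (Place F)) (y : ∀ v : Place F, v.comp) {η : ℝ} (hη : 0 < η) :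
    ∃ a : F, ∀ v ∈ S, ‖algebraMap F v.comp a - y v‖ < η := by
  have hd := AbsoluteValue.denseRange_algebraMap_pi (F := F) (v := fun v : S => (v : Place F).abv)
    (fun v => place_nontrivial (v : Place F)) (fun v w hvw h => hvw (Subtype.ext (place_eq_of_isEquiv h)))
  choose b hb using fun v : S =>
    (UniformSpace.Completion.denseRange_coe (α := WithAbs (v : Place F).abv)).exists_dist_lt
      (y (v : Place F)) (half_pos hη)
  obtain ⟨a, ha⟩ := hd.exists_dist_lt b (half_pos hη)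
  refine ⟨a, fun v0 hv0 => ?_⟩
  let v : S := ⟨v0, hv0⟩
  change ‖algebraMap F (v : Place F).comp a - y (v : Place F)‖ < η
  have h1 : dist (b v) (WithAbs.toAbs (v : Place F).abv a) < η / 2 :=
    (dist_le_pi_dist b _ v).trans_lt ha
  have h2 : algebraMap F (v : Place F).comp a =
      ((WithAbs.toAbs (v : Place F).abv a : WithAbs (v : Place F).abv) : (v : Place F).comp) := rfl
  rw [h2, ← dist_eq_norm, dist_comm]
  calc dist (y (v : Place F)) _ ≤ dist (y (v : Place F)) (b v : (v : Place F).comp) +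
        dist (b v : (v : Place F).comp) _ := dist_triangle _ _ _
    _ < η / 2 + η / 2 := by
        refine add_lt_add (hb v) ?_
        rwa [UniformSpace.Completion.dist_eq]
    _ = η := by ring

/-- Weak approximation for the conjugates of a pure quaternion. -/
theorem approx_conj (h2 : (2 : F) ≠ 0) {a b : Fˣ} {p : Qt a b} (hp : p.re = 0) (hn : nrd p ≠ 0)
    (S : Finset (Place F)) (q : ∀ v : Place F, Qt (up v.comp a) (up v.comp b))
    (hq : ∀ v ∈ S, (q v).re = 0 ∧ nrd (q v) = algebraMap F v.comp (nrd p)) {ε : ℝ} (hε : 0 < ε) :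
    ∃ g : Qt a b, nrd g ≠ 0 ∧ ∀ v ∈ S, ‖algebraMap F v.comp (cI p g) - (q v).imI‖ < ε := by
  classical
  have hloc : ∀ v : Place F, ∃ (G : Qt (up v.comp a) (up v.comp b)) (η : ℝ), 0 < η ∧
      (v ∈ S → ∀ t : Qt (up v.comp a) (up v.comp b), ‖t.re - G.re‖ < η →
        ‖t.imI - G.imI‖ < η → ‖t.imJ - G.imJ‖ < η → ‖t.imK - G.imK‖ < η →
        nrd t ≠ 0 ∧ ‖cI (mapQ v.comp p) t - (q v).imI‖ < ε) := by
    intro v
    by_cases hv : v ∈ S
    · have h2' : (2 : v.comp) ≠ 0 := by
        rw [← map_ofNat (algebraMap F v.comp) 2]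
        exact (map_ne_zero _).mpr h2
      have hnp : nrd (mapQ v.comp p) ≠ 0 := by
        rw [nrd_mapQ]
        exact (map_ne_zero _).mpr hn
      obtain ⟨G, hG, hGp⟩ := exists_conj h2' (p := mapQ v.comp p) (q := q v)
        (by simp [mapQ, hp]) (hq v hv).1 hnp (by rw [(hq v hv).2, nrd_mapQ])
      obtain ⟨η, hη, h⟩ := cI_near (mapQ v.comp p) G hG hε
      refine ⟨G, η, hη, fun _ t h3 h4 h5 h6 => ?_⟩
      obtain ⟨h7, h8⟩ := h t h3 h4 h5 h6
      rw [cI_of_conj hG hGp] at h8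
      exact ⟨h7, h8⟩
    · exact ⟨0, 1, one_pos, fun h => absurd h hv⟩
  choose G η hη h using hloc
  rcases S.eq_empty_or_nonempty with rfl | hS
  · exact ⟨1, by rw [nrd_one]; exact one_ne_zero, fun v hv => absurd hv (Finset.notMem_empty v)⟩
  · let η0 : ℝ := S.inf' hS η
    have hη0 : 0 < η0 := (Finset.lt_inf'_iff hS).mpr fun v _ => hη v
    have hle : ∀ v ∈ S, η0 ≤ η v := fun v hv => Finset.inf'_le _ hv
    obtain ⟨x0, hx0⟩ := place_weak S (fun v => (G v).re) hη0
    obtain ⟨x1, hx1⟩ := place_weak S (fun v => (G v).imI) hη0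
    obtain ⟨x2, hx2⟩ := place_weak S (fun v => (G v).imJ) hη0
    obtain ⟨x3, hx3⟩ := place_weak S (fun v => (G v).imK) hη0
    have key : ∀ v ∈ S, nrd (mapQ v.comp (⟨x0, x1, x2, x3⟩ : Qt a b)) ≠ 0 ∧
        ‖cI (mapQ v.comp p) (mapQ v.comp (⟨x0, x1, x2, x3⟩ : Qt a b)) - (q v).imI‖ < ε :=
      fun v hv => h v hv _ ((hx0 v hv).trans_le (hle v hv)) ((hx1 v hv).trans_le (hle v hv))
        ((hx2 v hv).trans_le (hle v hv)) ((hx3 v hv).trans_le (hle v hv))
    refine ⟨⟨x0, x1, x2, x3⟩, ?_, fun v hv => ?_⟩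
    · obtain ⟨v, hv⟩ := hS
      have h1 := (key v hv).1
      rw [nrd_mapQ] at h1
      exact fun h0 => h1 (by rw [h0, map_zero])
    · have h1 := (key v hv).2
      rwa [cI_mapQ] at h1

end places

end Vale.Agent.P011.H704.R6
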