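import Vale.Agent.P011.MPQ.Defs

/-!
Norm-one group of a quaternion algebra: the group theoretic half of the theorem that elements
close to one are products of commutators.
-/

namespace Vale.Agent.P011.H704.R6

open Vale.Agent.P011.MPQ

section group

variable {Γ Γ' A : Type} [Group Γ] [Group Γ'] [CommGroup A]

/-- Conjugates by elements of the same norm have the same image. -/
theorem conj_eq (φ : Γ →* Γ') (N : Γ →* A) {H : Subgroup Γ}
    (hc : ∀ u, N u = 1 → ∀ x ∈ H, φ u * φ x = φ x * φ u) {g h x : Γ} (hx : x ∈ H)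
    (hgh : N g = N h) : φ (g * x * g⁻¹) = φ (h * x * h⁻¹) := by
  have hu : N (h⁻¹ * g) = 1 := by rw [map_mul, map_inv, hgh, inv_mul_cancel]
  have h1 := hc _ hu x hx
  have h2 : φ (g * x * g⁻¹) = φ h * (φ (h⁻¹ * g) * φ x) * (φ (h⁻¹ * g))⁻¹ * (φ h)⁻¹ := by
    rw [← map_mul, ← map_inv, ← map_inv, ← map_mul, ← map_mul, ← map_mul]
    congr 1
    group
  rw [h2, h1, map_mul (f := φ) (h * x), map_mul (f := φ) h, map_inv (f := φ) h]
  group

/-- Step one: the class of `y` is invariant under `g` if the norm of `g` is the product of the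
norms of an element which commutes with `y` and an element which commutes with `z`. -/
theorem step_one (φ : Γ →* Γ') (N : Γ →* A) {H : Subgroup Γ}
    (hc : ∀ u, N u = 1 → ∀ x ∈ H, φ u * φ x = φ x * φ u) {y z b g h₁ h₂ : Γ}
    (hy : y ∈ H) (hz : z ∈ H) (hb : y * z = b * z * b⁻¹) (h1 : h₁ * y = y * h₁)
    (h2 : h₂ * z = z * h₂) (hN : N g = N h₁ * N h₂) : φ (g * y * g⁻¹) = φ y := by
  have e1 : φ (g * y * g⁻¹) = φ (h₂ * h₁ * y * (h₂ * h₁)⁻¹) :=
    conj_eq φ N hc hy (by rw [hN, map_mul, mul_comm])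
  have e2 : h₂ * h₁ * y * (h₂ * h₁)⁻¹ = (h₂ * b * z * (h₂ * b)⁻¹) * z⁻¹ := by
    have e3 : h₂ * h₁ * y * (h₂ * h₁)⁻¹ = h₂ * (h₁ * y * h₁⁻¹) * h₂⁻¹ := by group
    have e4 : h₁ * y * h₁⁻¹ = y := by rw [h1]; group
    have e5 : y = b * z * b⁻¹ * z⁻¹ := by rw [← hb]; group
    have e6 : h₂ * z * h₂⁻¹ = z := by rw [h2]; group
    rw [e3, e4]
    calc h₂ * y * h₂⁻¹ = h₂ * (b * z * b⁻¹ * z⁻¹) * h₂⁻¹ := by rw [← e5]
      _ = (h₂ * b * z * (h₂ * b)⁻¹) * (h₂ * z * h₂⁻¹)⁻¹ := by group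
      _ = _ := by rw [e6]
  have e7 : φ (h₂ * b * z * (h₂ * b)⁻¹) = φ (b * h₂ * z * (b * h₂)⁻¹) :=
    conj_eq φ N hc hz (by rw [map_mul, map_mul, mul_comm])
  have e8 : b * h₂ * z * (b * h₂)⁻¹ = y * z := by
    have e6 : h₂ * z * h₂⁻¹ = z := by rw [h2]; group
    calc b * h₂ * z * (b * h₂)⁻¹ = b * (h₂ * z * h₂⁻¹) * b⁻¹ := by group
      _ = _ := by rw [e6, hb]
  rw [e1, e2, map_mul, e7, e8, ← map_mul]
  congr 1
  group

/-- Step two: the class of `y` is trivial if `y * z` is conjugate to `z` by an element which does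
not change the class of `z`. -/
theorem step_two (φ : Γ →* Γ') {y z b : Γ} (hb : y * z = b * z * b⁻¹)
    (h : φ (b * z * b⁻¹) = φ z) : φ y = 1 := by
  rw [← hb, map_mul] at h
  exact mul_eq_right.mp h

end group

section quat

variable {F : Type} [Field F] {a b : Fˣ}

/-- The conjugate. -/
def cj (x : Qt a b) : Qt a b := ⟨x.re, -x.imI, -x.imJ, -x.imK⟩

theorem mul_cj (x : Qt a b) : x * cj x = algebraMap F (Qt a b) (nrd x) := by
  ext
  · simp only [cj, nrd, QuaternionAlgebra.re_mul, QuaternionAlgebra.algebraMap_eq]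
    ring
  · simp only [cj, nrd, QuaternionAlgebra.imI_mul, QuaternionAlgebra.algebraMap_eq]
    ring
  · simp only [cj, nrd, QuaternionAlgebra.imJ_mul, QuaternionAlgebra.algebraMap_eq]
    ring
  · simp only [cj, nrd, QuaternionAlgebra.imK_mul, QuaternionAlgebra.algebraMap_eq]
    ring

theorem cj_mul (x : Qt a b) : cj x * x = algebraMap F (Qt a b) (nrd x) := by
  ext
  · simp only [cj, nrd, QuaternionAlgebra.re_mul, QuaternionAlgebra.algebraMap_eq]
    ring
  · simp only [cj, nrd, QuaternionAlgebra.imI_mul, QuaternionAlgebra.algebraMap_eq]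
    ring
  · simp only [cj, nrd, QuaternionAlgebra.imJ_mul, QuaternionAlgebra.algebraMap_eq]
    ring
  · simp only [cj, nrd, QuaternionAlgebra.imK_mul, QuaternionAlgebra.algebraMap_eq]
    ring

/-- The unit defined by an element of nonzero norm. -/
def unitOf (x : Qt a b) (hx : nrd x ≠ 0) : (Qt a b)ˣ where
  val := x
  inv := (nrd x)⁻¹ • cj x
  val_inv := by
    rw [mul_smul_comm, mul_cj, Algebra.smul_def, ← map_mul, inv_mul_cancel₀ hx, map_one]
  inv_val := by
    rw [smul_mul_assoc, cj_mul, Algebra.smul_def, ← map_mul, inv_mul_cancel₀ hx, map_one]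

theorem val_unitOf (x : Qt a b) (hx : nrd x ≠ 0) : ((unitOf x hx : (Qt a b)ˣ) : Qt a b) = x := rfl

/-- The norm on the group of units. -/
def nrdU : (Qt a b)ˣ →* Fˣ where
  toFun x := ⟨nrd (x : Qt a b), nrd ((x⁻¹ : (Qt a b)ˣ) : Qt a b),
    by rw [← nrd_mul, ← Units.val_mul, mul_inv_cancel]; exact nrd_one,
    by rw [← nrd_mul, ← Units.val_mul, inv_mul_cancel]; exact nrd_one⟩
  map_one' := by ext; exact nrd_one
  map_mul' x y := by ext; exact nrd_mul _ _

theorem nrdU_val (x : (Qt a b)ˣ) : ((nrdU x : Fˣ) : F) = nrd (x : Qt a b) := rfl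

theorem inv_eq_cj {x : (Qt a b)ˣ} (hx : nrd (x : Qt a b) = 1) :
    ((x⁻¹ : (Qt a b)ˣ) : Qt a b) = cj (x : Qt a b) := by
  have h := mul_cj (x : Qt a b)
  rw [hx, map_one] at h
  calc ((x⁻¹ : (Qt a b)ˣ) : Qt a b) = ((x⁻¹ : (Qt a b)ˣ) : Qt a b) * ((x : Qt a b) * cj (x : Qt a b)) := by
        rw [h, mul_one]
    _ = cj (x : Qt a b) := by rw [← mul_assoc, Units.inv_mul, one_mul]

theorem sq_eq (x : Qt a b) : x * x = (2 * x.re) • x - algebraMap F (Qt a b) (nrd x) := by
  ext
  · simp only [nrd, QuaternionAlgebra.re_mul, QuaternionAlgebra.algebraMap_eq,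
      QuaternionAlgebra.re_sub, QuaternionAlgebra.re_smul, smul_eq_mul]
    ring
  · simp only [nrd, QuaternionAlgebra.imI_mul, QuaternionAlgebra.algebraMap_eq,
      QuaternionAlgebra.imI_sub, QuaternionAlgebra.imI_smul, smul_eq_mul]
    ring
  · simp only [nrd, QuaternionAlgebra.imJ_mul, QuaternionAlgebra.algebraMap_eq,
      QuaternionAlgebra.imJ_sub, QuaternionAlgebra.imJ_smul, smul_eq_mul]
    ring
  · simp only [nrd, QuaternionAlgebra.imK_mul, QuaternionAlgebra.algebraMap_eq,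
      QuaternionAlgebra.imK_sub, QuaternionAlgebra.imK_smul, smul_eq_mul]
    ring

theorem cj_eq (x : Qt a b) : cj x = algebraMap F (Qt a b) (2 * x.re) - x := by
  ext
  · simp only [cj, QuaternionAlgebra.algebraMap_eq, QuaternionAlgebra.re_sub]
    ring
  · simp only [cj, QuaternionAlgebra.algebraMap_eq, QuaternionAlgebra.imI_sub]
    ring
  · simp only [cj, QuaternionAlgebra.algebraMap_eq, QuaternionAlgebra.imJ_sub]
    ring
  · simp only [cj, QuaternionAlgebra.algebraMap_eq, QuaternionAlgebra.imK_sub]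
    ring

/-- The intertwiner of `w` and `z` of norm one with the same trace. -/
theorem intertwine {w z : Qt a b} (hw : nrd w = 1) (hz : nrd z = 1) (h : w.re = z.re) :
    w * (w - cj z) = (w - cj z) * z := by
  rw [mul_sub, sub_mul, sq_eq w, hw, cj_mul, hz, h, cj_eq z, mul_sub, map_one,
    ← Algebra.commutes, ← Algebra.smul_def]
  abel

theorem nrd_intertwine {w z y : Qt a b} (hw : nrd w = 1) (hz : nrd z = 1) (h : w.re = z.re)
    (hy : w = y * z) : nrd (w - cj z) = 2 + 2 * y.re - (2 * z.re) ^ 2 := by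
  have h1 : nrd (w - cj z) = nrd w + nrd z - 2 * (w * z).re := by
    simp only [nrd, cj, QuaternionAlgebra.re_mul, QuaternionAlgebra.re_sub,
      QuaternionAlgebra.imI_sub, QuaternionAlgebra.imJ_sub, QuaternionAlgebra.imK_sub]
    ring
  have h2 : (w * z).re = 2 * z.re * z.re - y.re := by
    have h3 : w * z = (2 * z.re) • w - y := by
      rw [hy, mul_assoc, sq_eq z, hz, map_one, mul_sub, mul_one, mul_smul_comm]
    rw [h3, QuaternionAlgebra.re_sub, QuaternionAlgebra.re_smul, h, smul_eq_mul]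
  rw [h1, h2, hw, hz]
  ring

end quat

end Vale.Agent.P011.H704.R6
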