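import Vale.Agent.P011.H704.R6.Alg

/-!
Two pure quaternions with the same square are conjugate.
-/

namespace Vale.Agent.P011.H704.R6

open Vale.Agent.P011.MPQ

section conj

variable {L : Type} [Field L] {a b : Lˣ}

theorem nrd_cj (x : Qt a b) : nrd (cj x) = nrd x := by
  simp only [nrd, cj]
  ring

theorem nrd_pure {x : Qt a b} (hx : x.re = 0) :
    nrd x = -(a * x.imI ^ 2 + b * x.imJ ^ 2 - a * b * x.imK ^ 2) := by
  simp only [nrd, hx]
  ring

/-- A nonisotropic pure quaternion has a nonisotropic pure quaternion which anticommutes with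
it. -/
theorem exists_anti (h2 : (2 : L) ≠ 0) {p : Qt a b} (hp : p.re = 0) (hn : nrd p ≠ 0) :
    ∃ j : Qt a b, j.re = 0 ∧ nrd j ≠ 0 ∧ j * p = -(p * j) := by
  have ha : (a : L) ≠ 0 := a.ne_zero
  have hb : (b : L) ≠ 0 := b.ne_zero
  by_cases h1 : (a : L) * p.imI ^ 2 + b * p.imJ ^ 2 = 0
  · by_cases h3 : (b : L) * p.imK ^ 2 - p.imI ^ 2 = 0
    · by_cases h4 : (a : L) * p.imK ^ 2 - p.imJ ^ 2 = 0
      · exfalso
        have h5 : 2 * ((a : L) * b * p.imK ^ 2) = 0 := by
          linear_combination h1 + a * h3 + b * h4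
        have h6 : (a : L) * b * p.imK ^ 2 = 0 := (mul_eq_zero.mp h5).resolve_left h2
        apply hn
        rw [nrd_pure hp]
        linear_combination -h1 + h6
      · refine ⟨⟨0, 0, a * p.imK, p.imJ⟩, rfl, ?_, ?_⟩
        · rw [nrd_pure rfl]
          intro h
          apply mul_ne_zero (mul_ne_zero ha hb) h4
          linear_combination -h
        · ext
          · simp only [QuaternionAlgebra.re_mul, QuaternionAlgebra.re_neg, hp]
            ring
          · simp only [QuaternionAlgebra.imI_mul, QuaternionAlgebra.imI_neg, hp]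
            ring
          · simp only [QuaternionAlgebra.imJ_mul, QuaternionAlgebra.imJ_neg, hp]
            ring
          · simp only [QuaternionAlgebra.imK_mul, QuaternionAlgebra.imK_neg, hp]
            ring
    · refine ⟨⟨0, b * p.imK, 0, p.imI⟩, rfl, ?_, ?_⟩
      · rw [nrd_pure rfl]
        intro h
        apply mul_ne_zero (mul_ne_zero ha hb) h3
        linear_combination -h
      · ext
        · simp only [QuaternionAlgebra.re_mul, QuaternionAlgebra.re_neg, hp]
          ring
        · simp only [QuaternionAlgebra.imI_mul, QuaternionAlgebra.imI_neg, hp]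
          ring
        · simp only [QuaternionAlgebra.imJ_mul, QuaternionAlgebra.imJ_neg, hp]
          ring
        · simp only [QuaternionAlgebra.imK_mul, QuaternionAlgebra.imK_neg, hp]
          ring
  · refine ⟨⟨0, -(b * p.imJ), a * p.imI, 0⟩, rfl, ?_, ?_⟩
    · rw [nrd_pure rfl]
      intro h
      apply mul_ne_zero (mul_ne_zero ha hb) h1
      linear_combination -h
    · ext
      · simp only [QuaternionAlgebra.re_mul, QuaternionAlgebra.re_neg, hp]
        ring
      · simp only [QuaternionAlgebra.imI_mul, QuaternionAlgebra.imI_neg, hp]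
        ring
      · simp only [QuaternionAlgebra.imJ_mul, QuaternionAlgebra.imJ_neg, hp]
        ring
      · simp only [QuaternionAlgebra.imK_mul, QuaternionAlgebra.imK_neg, hp]
        ring

/-- Pure quaternions with the same norm are conjugate. -/
theorem exists_conj (h2 : (2 : L) ≠ 0) {p q : Qt a b} (hp : p.re = 0) (hq : q.re = 0)
    (hn : nrd p ≠ 0) (hpq : nrd q = nrd p) : ∃ g : Qt a b, nrd g ≠ 0 ∧ g * p = q * g := by
  have hpp : p * p = algebraMap L (Qt a b) (-nrd p) := by
    rw [sq_eq, hp, mul_zero, zero_smul, zero_sub, map_neg]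
  have hqq : q * q = algebraMap L (Qt a b) (-nrd p) := by
    rw [sq_eq, hq, hpq, mul_zero, zero_smul, zero_sub, map_neg]
  have key : ∀ x : Qt a b, (q * x + x * p) * p = q * (q * x + x * p) := by
    intro x
    calc (q * x + x * p) * p = q * x * p + x * (p * p) := by noncomm_ring
      _ = (q * q) * x + q * x * p := by
          rw [hpp, hqq, ← Algebra.commutes, add_comm]
      _ = q * (q * x + x * p) := by noncomm_ring
  by_cases h1 : nrd (q + p) = 0
  · obtain ⟨j, hj0, hj1, hj2⟩ := exists_anti h2 hp hn
    refine ⟨q * j + j * p, ?_, key j⟩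
    have h3 : q * j + j * p = (q - p) * j := by rw [hj2]; noncomm_ring
    rw [h3, nrd_mul]
    refine mul_ne_zero (fun h4 => ?_) hj1
    have h5 : nrd (q + p) + nrd (q - p) = 2 * nrd q + 2 * nrd p := by
      simp only [nrd, QuaternionAlgebra.re_add, QuaternionAlgebra.re_sub,
        QuaternionAlgebra.imI_add, QuaternionAlgebra.imI_sub, QuaternionAlgebra.imJ_add,
        QuaternionAlgebra.imJ_sub, QuaternionAlgebra.imK_add, QuaternionAlgebra.imK_sub]
      ring
    rw [h1, h4, hpq] at h5
    have h6 : (2 : L) * 2 * nrd p = 0 := by linear_combination -h5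
    exact mul_ne_zero (mul_ne_zero h2 h2) hn h6
  · refine ⟨q * 1 + 1 * p, ?_, key 1⟩
    rwa [mul_one, one_mul]

/-- The value of the second coordinate of a conjugate, as a function of the conjugating
element. -/
def cI (p g : Qt a b) : L := (g * p * cj g).imI / nrd g

theorem cI_of_conj {p q g : Qt a b} (hg : nrd g ≠ 0) (h : g * p = q * g) : cI p g = q.imI := by
  have h1 : g * p * cj g = nrd g • q := by
    rw [h, mul_assoc, mul_cj, ← Algebra.commutes, ← Algebra.smul_def]
  unfold cI
  rw [h1, QuaternionAlgebra.imI_smul, smul_eq_mul, mul_div_cancel_left₀ _ hg]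

end conj

end Vale.Agent.P011.H704.R6
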