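import Vale.Agent.P011.H704.R6.Alg

/-!
From the data of the two steps to products of commutators.
-/

namespace Vale.Agent.P011.H704.R6

open Vale.Agent.P011.MPQ
open scoped commutatorElement

section fin

variable {F : Type} [Field F] {a b : Fˣ}

theorem mem_SL1 {x : (Qt a b)ˣ} : x ∈ SL1 a b ↔ nrd (x : Qt a b) = 1 := Iff.rfl

theorem nrd_conj (g x : (Qt a b)ˣ) :
    nrd ((g * x * g⁻¹ : (Qt a b)ˣ) : Qt a b) = nrd (x : Qt a b) := by
  have h : nrd (g : Qt a b) * nrd ((g⁻¹ : (Qt a b)ˣ) : Qt a b) = 1 := by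
    rw [← nrd_mul, ← Units.val_mul, mul_inv_cancel]
    exact nrd_one
  rw [Units.val_mul, Units.val_mul, nrd_mul, nrd_mul]
  linear_combination nrd (x : Qt a b) * h

instance SL1_normal : (SL1 a b).Normal :=
  ⟨fun x hx g => by rw [mem_SL1, nrd_conj]; exact hx⟩

theorem re_mul_comm (x y : Qt a b) : (x * y).re = (y * x).re := by
  simp only [QuaternionAlgebra.re_mul]
  ring

theorem re_conj (g x : (Qt a b)ˣ) :
    ((g * x * g⁻¹ : (Qt a b)ˣ) : Qt a b).re = (x : Qt a b).re := by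
  rw [Units.val_mul, re_mul_comm, Units.val_mul, ← mul_assoc, Units.inv_mul, one_mul]

theorem nrd_sub_one {x : Qt a b} (hx : nrd x = 1) : nrd (x - 1) = 2 - 2 * x.re := by
  have h : nrd (x - 1) = nrd x + 1 - 2 * x.re := by
    simp only [nrd, QuaternionAlgebra.re_sub, QuaternionAlgebra.imI_sub,
      QuaternionAlgebra.imJ_sub, QuaternionAlgebra.imK_sub, QuaternionAlgebra.re_one,
      QuaternionAlgebra.imI_one, QuaternionAlgebra.imJ_one, QuaternionAlgebra.imK_one]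
    ring
  rw [h, hx]
  ring

/-- The data of the first step: the element `r` is the product of the norm of an element which
commutes with `y` and of the norm of an element which commutes with some `z` for which `z` and
`y * z` have the same trace. -/
def Dat1 (C : Qt a b → Prop) : Prop :=
  ∀ y : Qt a b, nrd y = 1 → y ≠ 1 → C y → ∀ r : F, r ≠ 0 →
    ∃ z h₁ h₂ : Qt a b, nrd z = 1 ∧ (y * z).re = z.re ∧ h₁ * y = y * h₁ ∧ h₂ * z = z * h₂ ∧
      nrd h₁ ≠ 0 ∧ nrd h₂ ≠ 0 ∧ r = nrd h₁ * nrd h₂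

/-- The data of the second step. -/
def Dat2 (C : Qt a b → Prop) : Prop :=
  ∀ y : Qt a b, nrd y = 1 → y ≠ 1 → C y →
    ∃ z : Qt a b, nrd z = 1 ∧ (y * z).re = z.re ∧ y * z - cj z ≠ 0 ∧ C z

/-- **The elements which satisfy `C` are products of commutators.** -/
theorem mem_comm (hA : Aniso a b) {C : Qt a b → Prop} (h1 : Dat1 C) (h2 : Dat2 C)
    (y : SL1 a b) (hy : C ((y : (Qt a b)ˣ) : Qt a b)) : y ∈ commutator (SL1 a b) := by
  let G1 : Subgroup (Qt a b)ˣ := SL1 a b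
  let φ : (Qt a b)ˣ →* (Qt a b)ˣ ⧸ ⁅G1, G1⁆ := QuotientGroup.mk' ⁅G1, G1⁆
  have hc : ∀ u : (Qt a b)ˣ, nrdU u = 1 → ∀ x ∈ G1, φ u * φ x = φ x * φ u := by
    intro u hu x hx
    have hu1 : u ∈ G1 := by
      rw [mem_SL1, ← nrdU_val, hu, Units.val_one]
    have h3 : ⁅u, x⁆ ∈ ⁅G1, G1⁆ := Subgroup.commutator_mem_commutator hu1 hx
    have h4 : φ ⁅u, x⁆ = 1 := (QuotientGroup.eq_one_iff _).mpr h3
    rw [map_commutatorElement, commutatorElement_eq_one_iff_mul_comm] at h4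
    exact h4
  have hnz : ∀ x : Qt a b, x ≠ 0 → nrd x ≠ 0 := fun x hx h => hx (hA x h)
  have conjb : ∀ (y z : (Qt a b)ˣ) (hy : nrd (y : Qt a b) = 1) (hz : nrd (z : Qt a b) = 1)
      (hre : ((y : Qt a b) * (z : Qt a b)).re = (z : Qt a b).re)
      (hb : (y : Qt a b) * (z : Qt a b) - cj (z : Qt a b) ≠ 0),
      y * z = unitOf _ (hnz _ hb) * z * (unitOf _ (hnz _ hb))⁻¹ := by
    intro y z hy hz hre hb
    have h3 := intertwine (w := (y : Qt a b) * (z : Qt a b)) (z := (z : Qt a b))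
      (by rw [nrd_mul, hy, hz, mul_one]) hz hre
    rw [eq_mul_inv_iff_mul_eq]
    ext1
    exact h3
  -- the first step
  have step1 : ∀ (y g : (Qt a b)ˣ), nrd (y : Qt a b) = 1 → C (y : Qt a b) →
      φ (g * y * g⁻¹) = φ y := by
    intro y g hy hCy
    by_cases hy1 : (y : Qt a b) = 1
    · have : y = 1 := Units.ext hy1
      rw [this, mul_one, mul_inv_cancel]
    obtain ⟨z, k₁, k₂, hz, hre, hk1, hk2, hn1, hn2, hr⟩ := h1 y hy hy1 hCy (nrd (g : Qt a b))
      (by rw [← nrdU_val]; exact (nrdU g).ne_zero)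
    have hz0 : nrd z ≠ 0 := by rw [hz]; exact one_ne_zero
    let Z : (Qt a b)ˣ := unitOf z hz0
    let K₁ : (Qt a b)ˣ := unitOf k₁ hn1
    let K₂ : (Qt a b)ˣ := unitOf k₂ hn2
    have hK1 : K₁ * y = y * K₁ := Units.ext hk1
    have hK2 : K₂ * Z = Z * K₂ := Units.ext hk2
    have hN : nrdU g = nrdU K₁ * nrdU K₂ := by
      ext
      rw [Units.val_mul, nrdU_val, nrdU_val, nrdU_val]
      exact hr
    by_cases hb : (y : Qt a b) * z - cj z = 0
    · have h4 : y * Z = Z⁻¹ := by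
        ext1
        rw [inv_eq_cj (show nrd (Z : Qt a b) = 1 from hz)]
        exact sub_eq_zero.mp hb
      have h5 : y = Z⁻¹ * Z⁻¹ := by
        calc y = y * Z * Z⁻¹ := by group
          _ = _ := by rw [h4]
      have h6 : K₂ * y = y * K₂ := by
        have h7 : Commute K₂ Z⁻¹ := (show Commute K₂ Z from hK2).inv_right
        rw [h5]
        exact h7.mul_right h7
      have h8 := conj_eq φ nrdU hc (x := y) (h := K₁ * K₂) hy (by rw [hN, map_mul])
      rw [h8]
      have h9 : K₁ * K₂ * y = y * (K₁ * K₂) := by rw [mul_assoc, h6, ← mul_assoc, hK1, mul_assoc]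
      rw [h9, mul_assoc, mul_inv_cancel, mul_one]
    · exact step_one φ nrdU hc (y := y) (z := Z) hy hz (conjb y Z hy hz hre hb) hK1 hK2 hN
  -- the second step
  have step2 : ∀ y : (Qt a b)ˣ, nrd (y : Qt a b) = 1 → C (y : Qt a b) → φ y = 1 := by
    intro y hy hCy
    by_cases hy1 : (y : Qt a b) = 1
    · have : y = 1 := Units.ext hy1
      rw [this, map_one]
    obtain ⟨z, hz, hre, hb, hCz⟩ := h2 y hy hy1 hCy
    have hz0 : nrd z ≠ 0 := by rw [hz]; exact one_ne_zero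
    let Z : (Qt a b)ˣ := unitOf z hz0
    exact step_two φ (conjb y Z hy hz hre hb) (step1 Z _ hz hCz)
  have h3 := step2 y y.2 hy
  have h4 : (y : (Qt a b)ˣ) ∈ ⁅G1, G1⁆ := (QuotientGroup.eq_one_iff _).mp h3
  rw [← Subgroup.map_subtype_commutator] at h4
  obtain ⟨y', hy', hyy⟩ := h4
  have h5 : y' = y := Subtype.ext hyy
  rwa [h5] at hy'

end fin

end Vale.Agent.P011.H704.R6
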