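import Vale.Agent.P011.H704.R6.Pt
import Vale.Agent.P011.H704.R6.Fin

/-!
The data of the two steps, for `y = t + i`.
-/

set_option linter.unusedSectionVars false

namespace Vale.Agent.P011.H704.R6

open Vale.Agent.P011.MPQ Vale.Agent.P011.H738 Vale.Agent.P011.H271

/-- The local input of the first step. -/
def LocT : Prop :=
  ∀ (F : Type) [Field F] [GFF F] (_ : (2 : F) ≠ 0) (v : Place F) (δ b r : F) (_ : δ ≠ 0)
    (_ : δ + 4 ≠ 0) (_ : b ≠ 0) (_ : r ≠ 0)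
    (_ : v.abv δ < 1 ∨ ∃ x y : v.comp,
      x ^ 2 - algebraMap F v.comp (δ * (δ + 4) / 4) * y ^ 2 = algebraMap F v.comp b),
    ∃ s f1 f2 : v.comp, s ^ 2 * algebraMap F v.comp (δ * (δ + 4) / 4) +
      algebraMap F v.comp b * (f1 ^ 2 - algebraMap F v.comp (δ * (δ + 4) / 4) * f2 ^ 2) =
        algebraMap F v.comp δ ∧
      ∃ η : ℝ, 0 < η ∧ ∀ T : v.comp, ‖T - s * (algebraMap F v.comp δ + 4) / 2‖ < η →
        ∃ x y z w : v.comp, x ^ 2 - algebraMap F v.comp (δ * (δ + 4) / 4) * y ^ 2 ≠ 0 ∧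
          algebraMap F v.comp r * (x ^ 2 - algebraMap F v.comp (δ * (δ + 4) / 4) * y ^ 2) =
            z ^ 2 - (T ^ 2 - 4) * w ^ 2

/-- The local input of the second step. -/
def LocHalf : Prop :=
  ∀ (F : Type) [Field F] [GFF F] (_ : (2 : F) ≠ 0) (v : Place F) (δ : F) (_ : v.abv δ < 1),
    ∃ s : v.comp, s ^ 2 * algebraMap F v.comp (δ * (δ + 4) / 4) = algebraMap F v.comp δ ∧
      ‖s * (algebraMap F v.comp δ + 4) / 2 - 2‖ < 1

section dat

theorem half_aux {L : Type*} [Field L] {D : L} (hD : D ≠ 0) (A B c s β : L)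
    (hβ : β = c ^ 2 * B) :
    B * (0 ^ 2 - A * (2 * c * s / D) ^ 2) * D ^ 2 = -(4 * β * (s ^ 2 * A)) := by
  rw [hβ]
  field_simp
  ring

variable {F : Type} [Field F] [GFF F]

/-- The data of the first step. -/
theorem dat1_pres (h2 : (2 : F) ≠ 0) (hLT : LocT) {a b : Fˣ} (hA : Aniso a b) {t δ r : F}
    (hδ : δ = 2 * t - 2) (hδ0 : δ ≠ 0) (hat : (a : F) = t ^ 2 - 1) (hr : r ≠ 0)
    (hloc : ∀ v : Place F, v.abv δ < 1 ∨ ∃ x y : v.comp,
      x ^ 2 - algebraMap F v.comp a * y ^ 2 = algebraMap F v.comp b) :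
    ∃ z h₁ h₂ : Qt a b, nrd z = 1 ∧ (yt a b t * z).re = z.re ∧ h₁ * yt a b t = yt a b t * h₁ ∧
      h₂ * z = z * h₂ ∧ nrd h₁ ≠ 0 ∧ nrd h₂ ≠ 0 ∧ r = nrd h₁ * nrd h₂ := by
  have h4 : (4 : F) ≠ 0 := by
    have : (4 : F) = 2 * 2 := by norm_num
    rw [this]
    exact mul_ne_zero h2 h2
  have ha0 : (a : F) ≠ 0 := a.ne_zero
  have ha : (a : F) = δ * (δ + 4) / 4 := by
    rw [eq_div_iff h4, hat, hδ]
    ring
  have hδ4 : δ + 4 ≠ 0 := by
    intro h
    rw [ha, h, mul_zero, zero_div] at ha0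
    exact ha0 rfl
  obtain ⟨p, hp, hn⟩ := exists_p h2 hA hδ0 ha hloc
  choose s f1 f2 hs η hη hT using fun v : Place F =>
    hLT F h2 v δ b r hδ0 hδ4 b.ne_zero hr (by rw [← ha]; exact hloc v)
  obtain ⟨z, hz, hre, hzT⟩ := exists_z h2 hδ hδ0 hat hp hn
    (H465.R6B.finite_not_units ha0 hr).toFinset s f1 f2 (fun v _ => hs v) η hη
  -- the element `e`
  have hez : (2 * z.re) ^ 2 - 4 = 4 * (a * z.imI ^ 2 + b * z.imJ ^ 2 - a * b * z.imK ^ 2) := by
    have h5 : z.re ^ 2 - a * z.imI ^ 2 - b * z.imJ ^ 2 + a * b * z.imK ^ 2 = 1 := hz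
    linear_combination 4 * h5
  have he : (2 * z.re) ^ 2 - 4 ≠ 0 := by
    intro h5
    have h6 : nrd (⟨0, z.imI, z.imJ, z.imK⟩ : Qt a b) = 0 := by
      rw [nrd_pure rfl]
      change -((a : F) * z.imI ^ 2 + b * z.imJ ^ 2 - a * b * z.imK ^ 2) = 0
      rw [hez] at h5
      rw [(mul_eq_zero.mp h5).resolve_left h4, neg_zero]
    have h7 := hA _ h6
    have hI : z.imI = 0 := congrArg QuaternionAlgebra.imI h7
    have hJ : z.imJ = 0 := congrArg QuaternionAlgebra.imJ h7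
    have hK : z.imK = 0 := congrArg QuaternionAlgebra.imK h7
    have h8 : (yt a b t * z).re = t * z.re := by
      simp only [QuaternionAlgebra.re_mul, yt, hI, hJ, hK]
      ring
    have h9 : z.re ^ 2 = 1 := by
      have h5 : z.re ^ 2 - a * z.imI ^ 2 - b * z.imJ ^ 2 + a * b * z.imK ^ 2 = 1 := hz
      rw [hI, hJ, hK] at h5
      linear_combination h5
    apply hδ0
    rw [h8] at hre
    rw [hδ]
    linear_combination 2 * z.re * hre + (2 - 2 * t) * h9
  -- the global point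
  obtain ⟨x, y, u, w, h5, h6, h7⟩ := H465.R6B.hasse2 h2 ha0 he hr (by
    intro P
    by_cases hP : P.abv a = 1 ∧ P.abv r = 1
    · exact H465.R6B.loc_ok_units h2 hP.1 hP.2 _
    · have h8 := hT P (algebraMap F P.comp (2 * z.re))
        (hzT P ((Set.Finite.mem_toFinset _).mpr hP))
      rw [← ha] at h8
      have h9 : algebraMap F P.comp ((2 * z.re) ^ 2 - 4) =
          algebraMap F P.comp (2 * z.re) ^ 2 - 4 := by
        rw [map_sub, map_pow, map_ofNat]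
      rw [h9]
      exact h8)
  have hnsmul : ∀ (c : F) (x : Qt a b), nrd (c • x) = c ^ 2 * nrd x := by
    intro c x
    simp only [nrd, QuaternionAlgebra.re_smul, QuaternionAlgebra.imI_smul,
      QuaternionAlgebra.imJ_smul, QuaternionAlgebra.imK_smul, smul_eq_mul]
    ring
  have hn1 : nrd ((x ^ 2 - a * y ^ 2)⁻¹ • (⟨x, y, 0, 0⟩ : Qt a b)) = (x ^ 2 - a * y ^ 2)⁻¹ := by
    rw [hnsmul]
    have h8 : nrd (⟨x, y, 0, 0⟩ : Qt a b) = x ^ 2 - a * y ^ 2 := by
      simp only [nrd]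
      ring
    rw [h8]
    field_simp
  have hn2 : nrd (⟨u, 2 * w * z.imI, 2 * w * z.imJ, 2 * w * z.imK⟩ : Qt a b) =
      u ^ 2 - ((2 * z.re) ^ 2 - 4) * w ^ 2 := by
    rw [hez]
    simp only [nrd]
    ring
  refine ⟨z, (x ^ 2 - a * y ^ 2)⁻¹ • ⟨x, y, 0, 0⟩, ⟨u, 2 * w * z.imI, 2 * w * z.imJ, 2 * w * z.imK⟩,
    hz, hre, ?_, ?_, ?_, ?_, ?_⟩
  · rw [smul_mul_assoc, mul_smul_comm]
    congr 1
    ext
    · simp only [QuaternionAlgebra.re_mul, yt]
      ring
    · simp only [QuaternionAlgebra.imI_mul, yt]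
      ring
    · simp only [QuaternionAlgebra.imJ_mul, yt]
      ring
    · simp only [QuaternionAlgebra.imK_mul, yt]
      ring
  · ext
    · simp only [QuaternionAlgebra.re_mul]
      ring
    · simp only [QuaternionAlgebra.imI_mul]
      ring
    · simp only [QuaternionAlgebra.imJ_mul]
      ring
    · simp only [QuaternionAlgebra.imK_mul]
      ring
  · rw [hn1]
    exact inv_ne_zero h5
  · rw [hn2]
    exact h6
  · rw [hn1, hn2, ← h7]
    field_simp

/-- The local target of the second step. -/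
theorem half_target (h2 : (2 : F) ≠ 0) (hLH : LocHalf) {b δ : F} (hb : b ≠ 0) (hδ : δ ≠ 0)
    (hδ4 : δ + 4 ≠ 0) (v : Place F) (hv : v.abv δ < 1) :
    ∃ s f1 f2 : v.comp, s ^ 2 * algebraMap F v.comp (δ * (δ + 4) / 4) +
      algebraMap F v.comp b * (f1 ^ 2 - algebraMap F v.comp (δ * (δ + 4) / 4) * f2 ^ 2) =
        algebraMap F v.comp δ ∧
      ∃ η : ℝ, 0 < η ∧ ∀ T : v.comp, ‖T - s * (algebraMap F v.comp δ + 4) / 2‖ < η →
        ‖T - 2‖ < 1 ∧ T ^ 2 ≠ algebraMap F v.comp (δ + 4) := by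
  obtain ⟨s0, hs0, hs1⟩ := hLH F h2 v δ hv
  have h2' := two_ne_comp h2 v
  have hb' : algebraMap F v.comp b ≠ 0 := (map_ne_zero _).mpr hb
  have hδ' : algebraMap F v.comp δ ≠ 0 := (map_ne_zero _).mpr hδ
  have hδ4' : algebraMap F v.comp δ + 4 ≠ 0 := by
    rw [← map_ofNat (algebraMap F v.comp) 4, ← map_add]
    exact (map_ne_zero _).mpr hδ4
  have hn2 : ‖(2 : v.comp)‖ = 1 := by
    rw [← map_ofNat (algebraMap F v.comp) 2, norm_alg, H929.FF.abv_two h2]
  have h4' : (4 : v.comp) ≠ 0 := by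
    have : (4 : v.comp) = 2 * 2 := by norm_num
    rw [this]
    exact mul_ne_zero h2' h2'
  have hA4 : algebraMap F v.comp (δ * (δ + 4) / 4) * 4 =
      algebraMap F v.comp δ * (algebraMap F v.comp δ + 4) := by
    simp only [map_div₀, map_mul, map_add, map_ofNat]
    exact div_mul_cancel₀ _ h4'
  -- a small element
  obtain ⟨x, hx0, hx1⟩ : ∃ x : F, x ≠ 0 ∧ v.abv x < 1 := by
    obtain ⟨x, hx0, hx1⟩ := place_nontrivial v
    rcases lt_or_gt_of_ne hx1 with h | h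
    · exact ⟨x, hx0, h⟩
    · refine ⟨x⁻¹, inv_ne_zero hx0, ?_⟩
      rw [map_inv₀]
      exact inv_lt_one_of_one_lt₀ h
  obtain ⟨n, hn⟩ := exists_pow_lt_of_lt_one (show (0 : ℝ) < 1 / (v.abv b + 1) by
    have := v.abv.nonneg b
    positivity) hx1
  set β : v.comp := algebraMap F v.comp (x ^ n) ^ 2 * algebraMap F v.comp b with hβ
  have hc0 : algebraMap F v.comp (x ^ n) ≠ 0 := (map_ne_zero _).mpr (pow_ne_zero _ hx0)
  have hβ0 : β ≠ 0 := mul_ne_zero (pow_ne_zero _ hc0) hb'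
  have hβ1 : ‖β‖ < 1 := by
    have hb0 := v.abv.nonneg b
    have h5 : v.abv (x ^ n) < 1 / (v.abv b + 1) := by rwa [map_pow]
    have h6 : v.abv (x ^ n) ≤ 1 := by
      refine h5.le.trans ?_
      rw [div_le_one (by positivity)]
      linarith
    have h7 : v.abv (x ^ n) * v.abv b < 1 := by
      rw [lt_div_iff₀ (by positivity)] at h5
      have h8 := v.abv.nonneg (x ^ n)
      nlinarith [v.abv.pos (pow_ne_zero n hx0)]
    rw [hβ, norm_mul, norm_pow, norm_alg, norm_alg]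
    have h8 := v.abv.nonneg (x ^ n)
    calc v.abv (x ^ n) ^ 2 * v.abv b = v.abv (x ^ n) * (v.abv (x ^ n) * v.abv b) := by ring
      _ ≤ 1 * (v.abv (x ^ n) * v.abv b) := mul_le_mul_of_nonneg_right h6 (by positivity)
      _ < 1 := by rw [one_mul]; exact h7
  have hna : ∀ x y : v.comp, ‖x + y‖ ≤ max ‖x‖ ‖y‖ := fun x y => IsUltrametricDist.norm_add_le_max x y
  have h1β : ‖1 - β‖ = 1 := by
    have h5 : ‖(1 : v.comp)‖ = 1 := norm_one
    rw [sub_eq_add_neg, IsUltrametricDist.norm_add_eq_max_of_norm_ne_norm (by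
      rw [norm_neg, h5]; exact hβ1.ne'), norm_neg, h5, max_eq_left hβ1.le]
  have h1β0 : 1 - β ≠ 0 := by
    intro h
    rw [h, norm_zero] at h1β
    exact zero_ne_one h1β
  set U : v.comp := (1 + β) / (1 - β) with hU
  have hU1 : U - 1 = 2 * β / (1 - β) := by
    rw [hU]
    field_simp
    ring
  have hU2 : U + 1 = 2 / (1 - β) := by
    rw [hU]
    field_simp
    ring
  have hnU : ‖U - 1‖ < 1 := by
    rw [hU1, norm_div, norm_mul, hn2, one_mul, h1β, div_one]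
    exact hβ1
  have hT0 : ‖s0 * (algebraMap F v.comp δ + 4) / 2‖ ≤ 1 := by
    have h5 : s0 * (algebraMap F v.comp δ + 4) / 2 =
        (s0 * (algebraMap F v.comp δ + 4) / 2 - 2) + 2 := by ring
    rw [h5]
    refine (hna _ _).trans (max_le hs1.le hn2.le)
  set T0 : v.comp := U * s0 * (algebraMap F v.comp δ + 4) / 2 with hT0def
  have hT1 : ‖T0 - 2‖ < 1 := by
    have h5 : T0 - 2 = (s0 * (algebraMap F v.comp δ + 4) / 2 - 2) +
        (U - 1) * (s0 * (algebraMap F v.comp δ + 4) / 2) := by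
      rw [hT0def]
      ring
    rw [h5]
    refine (hna _ _).trans_lt (max_lt hs1 ?_)
    rw [norm_mul]
    calc ‖U - 1‖ * ‖s0 * (algebraMap F v.comp δ + 4) / 2‖ ≤ ‖U - 1‖ * 1 :=
          mul_le_mul_of_nonneg_left hT0 (norm_nonneg _)
      _ < 1 := by rw [mul_one]; exact hnU
  have hT2 : T0 ^ 2 - algebraMap F v.comp (δ + 4) ≠ 0 := by
    have h5 : algebraMap F v.comp δ * (T0 ^ 2 - algebraMap F v.comp (δ + 4)) =
        (U - 1) * (U + 1) * (algebraMap F v.comp δ * (algebraMap F v.comp δ + 4)) := by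
      have h6 : 4 * T0 ^ 2 = U ^ 2 * s0 ^ 2 * (algebraMap F v.comp δ + 4) ^ 2 := by
        rw [hT0def]
        field_simp
        ring
      have h7 : 4 * (s0 ^ 2 * (algebraMap F v.comp δ + 4)) = 4 * 4 := by
        apply mul_left_cancel₀ hδ'
        linear_combination 4 * 4 * hs0 - 4 * s0 ^ 2 * hA4
      rw [map_add, map_ofNat]
      apply mul_left_cancel₀ h4'
      apply mul_left_cancel₀ h4'
      linear_combination (4 * algebraMap F v.comp δ) * h6 +
        (algebraMap F v.comp δ * U ^ 2 * (algebraMap F v.comp δ + 4)) * h7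
    intro h6
    rw [h6, mul_zero, hU1, hU2] at h5
    have h7 : 2 * β / (1 - β) * (2 / (1 - β)) *
        (algebraMap F v.comp δ * (algebraMap F v.comp δ + 4)) ≠ 0 := by
      refine mul_ne_zero (mul_ne_zero ?_ ?_) (mul_ne_zero hδ' hδ4')
      · exact div_ne_zero (mul_ne_zero h2' hβ0) h1β0
      · exact div_ne_zero h2' h1β0
    exact h7 h5.symm
  refine ⟨U * s0, 0, 2 * algebraMap F v.comp (x ^ n) * s0 / (1 - β), ?_,
    min 1 ‖T0 ^ 2 - algebraMap F v.comp (δ + 4)‖, lt_min one_pos (norm_pos_iff.mpr hT2), ?_⟩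
  · rw [← hs0]
    have h5 : U ^ 2 * (1 - β) ^ 2 = (1 + β) ^ 2 := by
      rw [hU]
      field_simp
    have h6 : algebraMap F v.comp b * (0 ^ 2 - algebraMap F v.comp (δ * (δ + 4) / 4) *
        (2 * algebraMap F v.comp (x ^ n) * s0 / (1 - β)) ^ 2) * (1 - β) ^ 2 =
        -(4 * β * (s0 ^ 2 * algebraMap F v.comp (δ * (δ + 4) / 4))) :=
      half_aux h1β0 _ _ _ _ _ hβ
    apply mul_right_cancel₀ (pow_ne_zero 2 h1β0)
    linear_combination (s0 ^ 2 * algebraMap F v.comp (δ * (δ + 4) / 4)) * h5 + h6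
  · intro T hT
    change ‖T - T0‖ < _ at hT
    have h5 := hT.trans_le (min_le_left _ _)
    have h6 := hT.trans_le (min_le_right _ _)
    have h7 : ‖T - 2‖ < 1 := by
      have h8 : T - 2 = (T - T0) + (T0 - 2) := by ring
      rw [h8]
      exact (hna _ _).trans_lt (max_lt h5 hT1)
    refine ⟨h7, fun h8 => ?_⟩
    have h9 : T0 ^ 2 - algebraMap F v.comp (δ + 4) = -(T - T0) * ((T - 2) + (T0 - 2) + 4) := by
      rw [← h8]
      ring
    have h10 : ‖(T - 2) + (T0 - 2) + 4‖ ≤ 1 := by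
      refine (hna _ _).trans (max_le ((hna _ _).trans (max_le h7.le hT1.le)) ?_)
      have : (4 : v.comp) = 2 * 2 := by norm_num
      rw [this, norm_mul, hn2, mul_one]
    rw [h9, norm_mul, norm_neg] at h6
    have h11 : ‖T - T0‖ * ‖(T - 2) + (T0 - 2) + 4‖ ≤ ‖T - T0‖ * 1 :=
      mul_le_mul_of_nonneg_left h10 (norm_nonneg _)
    linarith

/-- The data of the second step. -/
theorem dat2_pres (h2 : (2 : F) ≠ 0) (hLH : LocHalf) {a b : Fˣ} (hA : Aniso a b) {t δ : F}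
    (hδ : δ = 2 * t - 2) (hδ0 : δ ≠ 0) (hat : (a : F) = t ^ 2 - 1)
    (hloc : ∀ v : Place F, v.abv δ < 1 ∨ ∃ x y : v.comp,
      x ^ 2 - algebraMap F v.comp a * y ^ 2 = algebraMap F v.comp b)
    (S : Finset (Place F)) (hS : S.Nonempty) (hSδ : ∀ v ∈ S, v.abv δ < 1) :
    ∃ z : Qt a b, nrd z = 1 ∧ (yt a b t * z).re = z.re ∧ yt a b t * z - cj z ≠ 0 ∧
      ∀ v ∈ S, v.abv (nrd (z - 1)) < 1 := by
  have h4 : (4 : F) ≠ 0 := by
    have : (4 : F) = 2 * 2 := by norm_num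
    rw [this]
    exact mul_ne_zero h2 h2
  have ha0 : (a : F) ≠ 0 := a.ne_zero
  have ha : (a : F) = δ * (δ + 4) / 4 := by
    rw [eq_div_iff h4, hat, hδ]
    ring
  have hδ4 : δ + 4 ≠ 0 := by
    intro h
    rw [ha, h, mul_zero, zero_div] at ha0
    exact ha0 rfl
  obtain ⟨p, hp, hn⟩ := exists_p h2 hA hδ0 ha hloc
  have hloc' : ∀ v : Place F, ∃ (s f1 f2 : v.comp) (η : ℝ), 0 < η ∧ (v ∈ S →
      s ^ 2 * algebraMap F v.comp (δ * (δ + 4) / 4) + algebraMap F v.comp b *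
        (f1 ^ 2 - algebraMap F v.comp (δ * (δ + 4) / 4) * f2 ^ 2) = algebraMap F v.comp δ ∧
      ∀ T : v.comp, ‖T - s * (algebraMap F v.comp δ + 4) / 2‖ < η →
        ‖T - 2‖ < 1 ∧ T ^ 2 ≠ algebraMap F v.comp (δ + 4)) := by
    intro v
    by_cases hv : v ∈ S
    · obtain ⟨s, f1, f2, h5, η, h6, h7⟩ := half_target h2 hLH b.ne_zero hδ0 hδ4 v (hSδ v hv)
      exact ⟨s, f1, f2, η, h6, fun _ => ⟨h5, h7⟩⟩
    · exact ⟨0, 0, 0, 1, one_pos, fun h => absurd h hv⟩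
  choose s f1 f2 η hη hS' using hloc'
  obtain ⟨z, hz, hre, hzT⟩ := exists_z h2 hδ hδ0 hat hp hn S s f1 f2 (fun v hv => (hS' v hv).1) η hη
  refine ⟨z, hz, hre, fun h5 => ?_, fun v hv => ?_⟩
  · obtain ⟨v, hv⟩ := hS
    have h6 := nrd_intertwine (w := yt a b t * z) (z := z) (y := yt a b t)
      (by rw [nrd_mul, nrd_yt hat, hz, mul_one]) hz hre rfl
    rw [h5] at h6
    have h7 : (2 * z.re) ^ 2 = δ + 4 := by
      have h8 : nrd (0 : Qt a b) = 0 := by simp [nrd]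
      have h9 : (yt a b t).re = t := rfl
      rw [h8, h9] at h6
      rw [hδ]
      linear_combination h6
    apply ((hS' v hv).2 _ (hzT v hv)).2
    rw [← map_pow, h7]
  · have h6 := ((hS' v hv).2 _ (hzT v hv)).1
    rw [nrd_sub_one hz]
    have h7 : v.abv (2 - 2 * z.re) = ‖algebraMap F v.comp (2 * z.re) - 2‖ := by
      rw [← map_ofNat (algebraMap F v.comp) 2, ← map_sub, norm_alg, ← v.abv.map_neg]
      congr 1
      ring
    rw [h7]
    exact h6

end dat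

end Vale.Agent.P011.H704.R6
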