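import Vale.Agent.P011.H704.R6.Main0
import Vale.Agent.P011.H974.R6D
import Vale.Agent.P011.H308.R6P

/-!
The norm-one group of a quaternion algebra over a global function field: the elements close to
one at the ramified places are products of commutators.
-/

namespace Vale.Agent.P011.H704.R6

open Vale.Agent.P011.MPQ Vale.Agent.P011.H738 Vale.Agent.P011.H271

theorem pres : Pres := by
  intro F _ h2 a0 b0 hA y hy hy1 hy2
  exact H308.R6P.exists_pres h2 hA y hy hy1 hy2

theorem locT : LocT := by
  intro F _ _ h2 v δ b r h3 h4 h5 h6 h7
  exact H974.R6.loc_T h2 v h3 h4 h5 h6 h7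

theorem locHalf : LocHalf := by
  intro F _ _ h2 v δ h
  exact H974.R6.loc_half h2 v h

/-- **Let `Q` be a quaternion division algebra over a global function field of characteristic
different from two.  The elements `g` of reduced norm one of `Q` which are congruent to one modulo
the maximal ideal at every place at which `Q` ramifies are products of commutators of elements of
reduced norm one.** -/
theorem mp_ab {F : Type} [Field F] [GFF F] {a b : Fˣ} (h2 : (2 : F) ≠ 0) (hA : Aniso a b)
    (g : SL1 a b) (h : ∀ v : Place F, RamF a b v →
      v.abv (nrd (((g : (Qt a b)ˣ) : Qt a b) - 1)) < 1) : g ∈ commutator (SL1 a b) :=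
  mp_ab_of pres locT locHalf h2 hA g h

end Vale.Agent.P011.H704.R6
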