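import Vale.Agent.P011.H704.R6.Fin

/-!
From the data of the two steps to products of commutators with elements of a given set.
-/

namespace Vale.Agent.P011.H704.R6

open Vale.Agent.P011.MPQ
open scoped commutatorElement

section fin

variable {F : Type} [Field F] {a b : Fˣ}

/-- The data of the first step, with an element `z` which satisfies `E`. -/
def Dat1H (C E : Qt a b → Prop) : Prop :=
  ∀ y : Qt a b, nrd y = 1 → y ≠ 1 → C y → ∀ r : F, r ≠ 0 →
    ∃ z h₁ h₂ : Qt a b, nrd z = 1 ∧ (y * z).re = z.re ∧ h₁ * y = y * h₁ ∧ h₂ * z = z * h₂ ∧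
      nrd h₁ ≠ 0 ∧ nrd h₂ ≠ 0 ∧ r = nrd h₁ * nrd h₂ ∧ E z

/-- **The elements which satisfy `C` are products of commutators of elements of norm one with
elements which satisfy `E`.** -/
theorem mem_commH (hA : Aniso a b) {C E : Qt a b → Prop}
    (hCE : ∀ y : Qt a b, nrd y = 1 → C y → E y)
    (hE : ∀ g z : (Qt a b)ˣ, nrd (z : Qt a b) = 1 → E (z : Qt a b) →
      E ((g * z * g⁻¹ : (Qt a b)ˣ) : Qt a b)) (h1 : Dat1H C E) (h2 : Dat2 C)
    (N : Subgroup (SL1 a b)) [hNn : N.Normal]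
    (hN : ∀ u z : SL1 a b, E ((z : (Qt a b)ˣ) : Qt a b) → ⁅u, z⁆ ∈ N)
    (y : SL1 a b) (hy : C ((y : (Qt a b)ˣ) : Qt a b)) : y ∈ N := by
  let G1 : Subgroup (Qt a b)ˣ := SL1 a b
  let X : Set (Qt a b)ˣ := {z | nrd (z : Qt a b) = 1 ∧ E (z : Qt a b)}
  let H1 : Subgroup (Qt a b)ˣ := Subgroup.closure X
  have hH1 : H1.Normal := by
    refine ⟨fun x hx g => ?_⟩
    induction hx using Subgroup.closure_induction with
    | mem x hx =>
      refine Subgroup.subset_closure ⟨?_, hE g x hx.1 hx.2⟩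
      rw [nrd_conj]
      exact hx.1
    | one => rw [mul_one, mul_inv_cancel]; exact H1.one_mem
    | mul x y _ _ hx hy =>
      have : g * (x * y) * g⁻¹ = (g * x * g⁻¹) * (g * y * g⁻¹) := by group
      rw [this]
      exact H1.mul_mem hx hy
    | inv x _ hx =>
      have : g * x⁻¹ * g⁻¹ = (g * x * g⁻¹)⁻¹ := by group
      rw [this]
      exact H1.inv_mem hx
  have hEH : ∀ z : (Qt a b)ˣ, nrd (z : Qt a b) = 1 → E (z : Qt a b) → z ∈ H1 :=
    fun z hz hz' => Subgroup.subset_closure ⟨hz, hz'⟩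
  let φ : (Qt a b)ˣ →* (Qt a b)ˣ ⧸ ⁅G1, H1⁆ := QuotientGroup.mk' ⁅G1, H1⁆
  have hc : ∀ u : (Qt a b)ˣ, nrdU u = 1 → ∀ x ∈ H1, φ u * φ x = φ x * φ u := by
    intro u hu x hx
    have hu1 : u ∈ G1 := by
      rw [mem_SL1, ← nrdU_val, hu, Units.val_one]
    have h3 : ⁅u, x⁆ ∈ ⁅G1, H1⁆ := Subgroup.commutator_mem_commutator hu1 hx
    have h4 : φ ⁅u, x⁆ = 1 := (QuotientGroup.eq_one_iff _).mpr h3
    rw [map_commutatorElement, commutatorElement_eq_one_iff_mul_comm] at h4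
    exact h4
  have hnz : ∀ x : Qt a b, x ≠ 0 → nrd x ≠ 0 := fun x hx h => hx (hA x h)
  have conjb : ∀ (y z : (Qt a b)ˣ) (hy : nrd (y : Qt a b) = 1) (hz : nrd (z : Qt a b) = 1)
      (hre : ((y : Qt a b) * (z : Qt a b)).re = (z : Qt a b).re)
      (hb : (y : Qt a b) * (z : Qt a b) - cj (z : Qt a b) ≠ 0),
      y * z = unitOf _ (hnz _ hb) * z * (unitOf _ (hnz _ hb))⁻¹ := by
    intro y z hy hz hre hb
    have h3 := intertwine (w := (y : Qt a b) * (z : Qt a b)) (z := (z : Qt a b))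
      (by rw [nrd_mul, hy, hz, mul_one]) hz hre
    rw [eq_mul_inv_iff_mul_eq]
    ext1
    exact h3
  -- the first step
  have step1 : ∀ (y g : (Qt a b)ˣ), nrd (y : Qt a b) = 1 → C (y : Qt a b) →
      φ (g * y * g⁻¹) = φ y := by
    intro y g hy hCy
    have hyH : y ∈ H1 := hEH y hy (hCE _ hy hCy)
    by_cases hy1 : (y : Qt a b) = 1
    · have : y = 1 := Units.ext hy1
      rw [this, mul_one, mul_inv_cancel]
    obtain ⟨z, k₁, k₂, hz, hre, hk1, hk2, hn1, hn2, hr, hEz⟩ := h1 y hy hy1 hCy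
      (nrd (g : Qt a b)) (by rw [← nrdU_val]; exact (nrdU g).ne_zero)
    have hz0 : nrd z ≠ 0 := by rw [hz]; exact one_ne_zero
    let Z : (Qt a b)ˣ := unitOf z hz0
    let K₁ : (Qt a b)ˣ := unitOf k₁ hn1
    let K₂ : (Qt a b)ˣ := unitOf k₂ hn2
    have hZH : Z ∈ H1 := hEH Z hz hEz
    have hK1 : K₁ * y = y * K₁ := Units.ext hk1
    have hK2 : K₂ * Z = Z * K₂ := Units.ext hk2
    have hN' : nrdU g = nrdU K₁ * nrdU K₂ := by
      ext
      rw [Units.val_mul, nrdU_val, nrdU_val, nrdU_val]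
      exact hr
    by_cases hb : (y : Qt a b) * z - cj z = 0
    · have h4 : y * Z = Z⁻¹ := by
        ext1
        rw [inv_eq_cj (show nrd (Z : Qt a b) = 1 from hz)]
        exact sub_eq_zero.mp hb
      have h5 : y = Z⁻¹ * Z⁻¹ := by
        calc y = y * Z * Z⁻¹ := by group
          _ = _ := by rw [h4]
      have h6 : K₂ * y = y * K₂ := by
        have h7 : Commute K₂ Z⁻¹ := (show Commute K₂ Z from hK2).inv_right
        rw [h5]
        exact h7.mul_right h7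
      have h8 := conj_eq φ nrdU hc (x := y) (h := K₁ * K₂) hyH (by rw [hN', map_mul])
      rw [h8]
      have h9 : K₁ * K₂ * y = y * (K₁ * K₂) := by rw [mul_assoc, h6, ← mul_assoc, hK1, mul_assoc]
      rw [h9, mul_assoc, mul_inv_cancel, mul_one]
    · exact step_one φ nrdU hc (y := y) (z := Z) hyH hZH (conjb y Z hy hz hre hb) hK1 hK2 hN'
  -- the second step
  have step2 : ∀ y : (Qt a b)ˣ, nrd (y : Qt a b) = 1 → C (y : Qt a b) → φ y = 1 := by
    intro y hy hCy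
    by_cases hy1 : (y : Qt a b) = 1
    · have : y = 1 := Units.ext hy1
      rw [this, map_one]
    obtain ⟨z, hz, hre, hb, hCz⟩ := h2 y hy hy1 hCy
    have hz0 : nrd z ≠ 0 := by rw [hz]; exact one_ne_zero
    let Z : (Qt a b)ˣ := unitOf z hz0
    exact step_two φ (conjb y Z hy hz hre hb) (step1 Z _ hz hCz)
  have h3 := step2 y y.2 hy
  have h4 : (y : (Qt a b)ˣ) ∈ ⁅G1, H1⁆ := (QuotientGroup.eq_one_iff _).mp h3
  have h5 : ⁅G1, H1⁆ ≤ N.map (SL1 a b).subtype := by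
    rw [Subgroup.commutator_le]
    intro u hu x hx
    suffices h : ∃ hx1 : x ∈ G1, ⁅(⟨u, hu⟩ : SL1 a b), (⟨x, hx1⟩ : SL1 a b)⁆ ∈ N by
      obtain ⟨hx1, h⟩ := h
      exact ⟨_, h, rfl⟩
    induction hx using Subgroup.closure_induction with
    | mem x hx => exact ⟨hx.1, hN _ _ hx.2⟩
    | one =>
      refine ⟨G1.one_mem, ?_⟩
      have : (⟨1, G1.one_mem⟩ : SL1 a b) = 1 := rfl
      rw [this, commutatorElement_one_right]
      exact N.one_mem
    | mul x y _ _ hx hy =>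
      obtain ⟨hx1, hx⟩ := hx
      obtain ⟨hy1, hy⟩ := hy
      refine ⟨G1.mul_mem hx1 hy1, ?_⟩
      have h6 : (⟨x * y, G1.mul_mem hx1 hy1⟩ : SL1 a b) = ⟨x, hx1⟩ * ⟨y, hy1⟩ := rfl
      rw [h6]
      have h7 : ∀ p q r : SL1 a b, ⁅p, q * r⁆ = ⁅p, q⁆ * (q * ⁅p, r⁆ * q⁻¹) := by
        intro p q r
        simp only [commutatorElement_def]
        group
      rw [h7]
      exact N.mul_mem hx (hNn.conj_mem _ hy _)
    | inv x _ hx =>
      obtain ⟨hx1, hx⟩ := hx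
      refine ⟨G1.inv_mem hx1, ?_⟩
      have h6 : (⟨x⁻¹, G1.inv_mem hx1⟩ : SL1 a b) = (⟨x, hx1⟩)⁻¹ := rfl
      rw [h6]
      have h7 : ∀ p q : SL1 a b, ⁅p, q⁻¹⁆ = q⁻¹ * ⁅p, q⁆⁻¹ * (q⁻¹)⁻¹ := by
        intro p q
        simp only [commutatorElement_def]
        group
      rw [h7]
      exact hNn.conj_mem _ (N.inv_mem hx) _
  obtain ⟨y', hy', hyy⟩ := h5 h4
  have h5 : y' = y := Subtype.ext hyy
  rwa [h5] at hy'

end fin

end Vale.Agent.P011.H704.R6
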