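import Vale.Agent.P011.H704.R6.Dat

/-!
The norm-one group of a quaternion algebra over a global function field: the elements close to
one at the ramified places are products of commutators.  The assembly, with the local inputs and
the change of presentation as hypotheses.
-/

set_option linter.unusedSectionVars false

namespace Vale.Agent.P011.H704.R6

open Vale.Agent.P011.MPQ Vale.Agent.P011.H738 Vale.Agent.P011.H271

/-- The place ramifies in the quaternion algebra. -/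
def RamF {F : Type} [Field F] (a b : Fˣ) (v : Place F) : Prop :=
  ¬ ∃ x y : v.comp, x ^ 2 - algebraMap F v.comp a * y ^ 2 = algebraMap F v.comp b

/-- The change of presentation. -/
def Pres : Prop :=
  ∀ (F : Type) [Field F] (_ : (2 : F) ≠ 0) (a0 b0 : Fˣ) (_ : Aniso a0 b0) (y : Qt a0 b0)
    (_ : nrd y = 1) (_ : y ≠ 1) (_ : y ≠ -1),
    ∃ (a b : Fˣ) (φ : Qt a b →ₐ[F] Qt a0 b0), (∀ x, nrd (φ x) = nrd x) ∧
      (∀ x, (φ x).re = x.re) ∧ Function.Injective φ ∧ φ ⟨y.re, 1, 0, 0⟩ = y ∧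
      (a : F) = (2 * y.re - 2) * (2 * y.re + 2) / 4 ∧ Aniso a b ∧
      ∀ (L : Type) [Field L] [Algebra F L],
        (∃ x z : L, x ^ 2 - algebraMap F L a0 * z ^ 2 = algebraMap F L b0) →
        ∃ x z : L, x ^ 2 - algebraMap F L a * z ^ 2 = algebraMap F L b

section main

variable {F : Type} [Field F] [GFF F] {a b : Fˣ}

/-- The finite set of the ramified places. -/
theorem ram_finite (h2 : (2 : F) ≠ 0) (a b : Fˣ) : {v : Place F | RamF a b v}.Finite := by
  refine (H465.R6B.finite_not_units a.ne_zero b.ne_zero).subset fun v hv h => hv ?_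
  exact H465.R6B.loc_even h2 h.1 one_ne_zero (by rw [h.2, map_one, one_pow])

/-- A division algebra ramifies somewhere. -/
theorem ram_nonempty (h2 : (2 : F) ≠ 0) (hA : Aniso a b) : ∃ v : Place F, RamF a b v := by
  by_contra h
  push Not at h
  obtain ⟨x, y, hxy⟩ := H465.R6B.hasse_quad_loc h2 a.ne_zero (b := (b : F)) fun v =>
    not_not.mp (h v)
  have h1 : nrd (⟨x, y, 1, 0⟩ : Qt a b) = 0 := by
    simp only [nrd]
    linear_combination hxy
  have h3 := congrArg QuaternionAlgebra.imJ (hA _ h1)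
  exact one_ne_zero h3

/-- The condition of closeness. -/
def Clo (a b : Fˣ) (y : Qt a b) : Prop := ∀ v : Place F, RamF a b v → v.abv (nrd (y - 1)) < 1

/-- The presentation adapted to `y`. -/
theorem adapted (h2 : (2 : F) ≠ 0) (hP : Pres) {a0 b0 : Fˣ} (hA : Aniso a0 b0) {y : Qt a0 b0}
    (hy : nrd y = 1) (hy1 : y ≠ 1) (hC : Clo a0 b0 y) :
    ∃ (a b : Fˣ) (φ : Qt a b →ₐ[F] Qt a0 b0) (δ t : F), (∀ x, nrd (φ x) = nrd x) ∧
      (∀ x, (φ x).re = x.re) ∧ Function.Injective φ ∧ φ (yt a b t) = y ∧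
      Aniso a b ∧ δ = 2 * t - 2 ∧ δ ≠ 0 ∧ (a : F) = t ^ 2 - 1 ∧
      (∀ v : Place F, v.abv (nrd (y - 1)) = v.abv δ) ∧
      ∀ v : Place F, v.abv δ < 1 ∨ ∃ x y : v.comp,
        x ^ 2 - algebraMap F v.comp a * y ^ 2 = algebraMap F v.comp b := by
  have h4 : (4 : F) ≠ 0 := by
    have : (4 : F) = 2 * 2 := by norm_num
    rw [this]
    exact mul_ne_zero h2 h2
  obtain ⟨v0, hv0⟩ := ram_nonempty h2 hA
  have hy2 : y ≠ -1 := by
    rintro rfl
    have h5 := hC v0 hv0
    rw [nrd_sub_one hy, QuaternionAlgebra.re_neg, QuaternionAlgebra.re_one] at h5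
    have h6 : (2 : F) - 2 * -1 = 2 * 2 := by ring
    rw [h6, map_mul, H929.FF.abv_two h2, mul_one] at h5
    exact lt_irrefl _ h5
  obtain ⟨a, b, φ, h5, h6, h7, h8, h9, h10, h11⟩ := hP F h2 a0 b0 hA y hy hy1 hy2
  have hn : nrd (y - 1) = -(2 * y.re - 2) := by
    rw [nrd_sub_one hy]
    ring
  refine ⟨a, b, φ, 2 * y.re - 2, y.re, h5, h6, h7, h8, h10, rfl, ?_, ?_, ?_, ?_⟩
  · intro h
    rw [h, neg_zero] at hn
    exact hy1 (sub_eq_zero.mp (hA _ hn))
  · rw [h9, div_eq_iff h4]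
    ring
  · intro v
    rw [hn, v.abv.map_neg]
  · intro v
    by_cases hv : RamF a0 b0 v
    · left
      have := hC v hv
      rwa [hn, v.abv.map_neg] at this
    · right
      exact h11 v.comp (not_not.mp hv)

theorem dat1 (h2 : (2 : F) ≠ 0) (hP : Pres) (hLT : LocT) (hA : Aniso a b) : Dat1 (Clo a b) := by
  intro y hy hy1 hC r hr
  obtain ⟨a', b', φ, δ, t, h5, h6, h7, h8, h9, h10, h11, h12, -, h13⟩ :=
    adapted h2 hP hA hy hy1 hC
  obtain ⟨z, k₁, k₂, g1, g2, g3, g4, g5, g6, g7⟩ :=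
    dat1_pres h2 hLT h9 h10 h11 h12 hr h13
  refine ⟨φ z, φ k₁, φ k₂, by rw [h5, g1], ?_, ?_, ?_, by rw [h5]; exact g5, by rw [h5]; exact g6,
    by rw [h5, h5]; exact g7⟩
  · rw [← h8, ← map_mul, h6, h6, g2]
  · rw [← h8, ← map_mul, g3, map_mul]
  · rw [← map_mul, g4, map_mul]

theorem dat2 (h2 : (2 : F) ≠ 0) (hP : Pres) (hLH : LocHalf) (hA : Aniso a b) :
    Dat2 (Clo a b) := by
  intro y hy hy1 hC
  obtain ⟨a', b', φ, δ, t, h5, h6, h7, h8, h9, h10, h11, h12, h13, h14⟩ :=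
    adapted h2 hP hA hy hy1 hC
  obtain ⟨v0, hv0⟩ := ram_nonempty h2 hA
  obtain ⟨z, g1, g2, g3, g4⟩ := dat2_pres h2 hLH h9 h10 h11 h12 h14 (ram_finite h2 a b).toFinset
    ⟨v0, (Set.Finite.mem_toFinset _).mpr hv0⟩ fun v hv => by
      rw [← h13 v]
      exact hC v ((Set.Finite.mem_toFinset _).mp hv)
  refine ⟨φ z, by rw [h5, g1], ?_, ?_, ?_⟩
  · rw [← h8, ← map_mul, h6, h6, g2]
  · have e1 : y * φ z - cj (φ z) = φ (yt a' b' t * z - cj z) := by
      rw [map_sub φ, map_mul φ, h8, cj_eq (φ z), cj_eq z, h6, map_sub φ, AlgHom.commutes]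
    rw [e1]
    exact fun h => g3 (h7 (by rw [h, map_zero]))
  · intro v hv
    have e1 : φ z - 1 = φ (z - 1) := by rw [map_sub, map_one]
    rw [e1, h5]
    exact g4 v ((Set.Finite.mem_toFinset _).mpr hv)

/-- **The elements of norm one which are close to one at the ramified places are products of
commutators.** -/
theorem mp_ab_of (hP : Pres) (hLT : LocT) (hLH : LocHalf) (h2 : (2 : F) ≠ 0) (hA : Aniso a b)
    (g : SL1 a b) (h : ∀ v : Place F, RamF a b v →
      v.abv (nrd (((g : (Qt a b)ˣ) : Qt a b) - 1)) < 1) : g ∈ commutator (SL1 a b) :=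
  mem_comm hA (dat1 h2 hP hLT hA) (dat2 h2 hP hLH hA) g h

end main

end Vale.Agent.P011.H704.R6
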