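import Vale.Agent.P011.H704.R6.DatH

/-!
The norm-one group of a quaternion algebra over a global function field: the elements close to
one at the ramified places, and of a higher level at some of them, are products of commutators of
elements of norm one with elements close to one at the latter.
-/

set_option linter.unusedSectionVars false

namespace Vale.Agent.P011.H704.R6

open Vale.Agent.P011.MPQ Vale.Agent.P011.H738 Vale.Agent.P011.H271
open scoped commutatorElement

/-- The elements of absolute value less than one. -/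
theorem le_unif {F : Type} [Field F] [GFF F] (v : Place F) {m : F} (h : v.abv m < 1) :
    v.abv m ≤ ‖algebraMap F v.comp (Hey.unif v)‖ := by
  by_cases hm : m = 0
  · rw [hm, map_zero]
    exact norm_nonneg _
  obtain ⟨n, hn⟩ := H974.R6.exists_zpow v ((map_ne_zero (algebraMap F v.comp)).mpr hm)
  rw [norm_alg] at hn
  rw [hn] at h ⊢
  have hq : (1 : ℤ) ≤ n := by
    by_contra hcon
    have h3 : (1 : ℝ) ≤ ‖algebraMap F v.comp (Hey.unif v)‖ ^ n := by
      have := zpow_le_zpow_right_of_le_one₀ (H974.R6.unif_pos v) (H974.R6.unif_lt v).le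
        (show n ≤ 0 by omega)
      rwa [zpow_zero] at this
    exact absurd h (not_lt.mpr h3)
  have := zpow_le_zpow_right_of_le_one₀ (H974.R6.unif_pos v) (H974.R6.unif_lt v).le hq
  rwa [zpow_one] at this

/-- The inverse of an isomorphism of quaternion algebras and the local solvability. -/
theorem transfer_back {F : Type} [Field F] (h2 : (2 : F) ≠ 0) {a b a0 b0 : Fˣ}
    (φ : Qt a b →ₐ[F] Qt a0 b0) (hre : ∀ x, (φ x).re = x.re) (hinj : Function.Injective φ)
    (L : Type) [Field L] [Algebra F L]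
    (h : ∃ x z : L, x ^ 2 - algebraMap F L a * z ^ 2 = algebraMap F L b) :
    ∃ x z : L, x ^ 2 - algebraMap F L a0 * z ^ 2 = algebraMap F L b0 := by
  have hs : Function.Surjective φ := by
    have h1 : Module.finrank F (Qt a b) = Module.finrank F (Qt a0 b0) := by
      rw [QuaternionAlgebra.finrank_eq_four, QuaternionAlgebra.finrank_eq_four]
    exact (LinearMap.injective_iff_surjective_of_finrank_eq_finrank h1
      (f := φ.toLinearMap)).mp hinj
  obtain ⟨u, hu⟩ := hs ⟨0, 1, 0, 0⟩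
  obtain ⟨t, ht⟩ := hs ⟨0, 0, 1, 0⟩
  have hP : H308.R6P.Pr a0 b0 u t := by
    refine ⟨?_, ?_, ?_, ?_, ?_⟩
    · rw [← hre, hu]
    · rw [← hre, ht]
    · apply hinj
      rw [map_mul, hu, AlgHom.commutes]
      ext <;> simp [QuaternionAlgebra.algebraMap_eq]
    · apply hinj
      rw [map_mul, ht, AlgHom.commutes]
      ext <;> simp [QuaternionAlgebra.algebraMap_eq]
    · apply hinj
      rw [map_mul, map_neg, map_mul, hu, ht]
      ext <;> simp
  exact hP.transferL L h2 h

section main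

variable {F : Type} [Field F] [GFF F] {a b : Fˣ}

/-- The condition on the levels of `y`. -/
def CloH (a b : Fˣ) (T : Finset (Place F)) (m : F) (y : Qt a b) : Prop :=
  Clo a b y ∧ ∀ v ∈ T, v.abv (nrd (y - 1)) < v.abv m ^ 3

/-- The condition on the levels of `z`. -/
def LevH (a b : Fˣ) (T : Finset (Place F)) (m : F) (z : Qt a b) : Prop :=
  ∀ v ∈ T, v.abv (nrd (z - 1)) ≤ v.abv m ^ 2

theorem dat1H (h2 : (2 : F) ≠ 0) (hA : Aniso a b) {T : Finset (Place F)}
    (hT : ∀ v ∈ T, RamF a b v) {m : F} (hm0 : m ≠ 0) (hm : ∀ v ∈ T, v.abv m < 1) :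
    Dat1H (CloH a b T m) (LevH a b T m) := by
  intro y hy hy1 hC r hr
  obtain ⟨a', b', φ, δ, t, h5, h6, h7, h8, h9, h10, h11, h12, h13, h14⟩ :=
    adapted h2 pres hA hy hy1 hC.1
  have h4 : (4 : F) ≠ 0 := by
    have : (4 : F) = 2 * 2 := by norm_num
    rw [this]
    exact mul_ne_zero h2 h2
  have ha : (a' : F) = δ * (δ + 4) / 4 := by
    rw [eq_div_iff h4, h12, h10]
    ring
  have hδ4 : δ + 4 ≠ 0 := by
    intro h
    have ha0 : (a' : F) ≠ 0 := a'.ne_zero
    rw [ha, h, mul_zero, zero_div] at ha0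
    exact ha0 rfl
  obtain ⟨z, k₁, k₂, g1, g2, g3, g4, g5, g6, g7, g8⟩ := dat1_gen h2 h9 h10 h11 h12 hr h14 T
    (fun v T => ‖T - 2‖ ≤ v.abv m ^ 2) (by
    intro v
    by_cases hv : v ∈ T
    · have hnn : ¬ ∃ x y : v.comp, x ^ 2 - algebraMap F v.comp (δ * (δ + 4) / 4) * y ^ 2 =
          algebraMap F v.comp b' := by
        intro h
        rw [← ha] at h
        exact hT v hv (transfer_back h2 φ h6 h7 v.comp h)
      have hmc : algebraMap F v.comp m ≠ 0 := (map_ne_zero _).mpr hm0
      have hmn : ‖algebraMap F v.comp m‖ = v.abv m := norm_alg v m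
      have hm1 : ‖algebraMap F v.comp m‖ < 1 := by rw [hmn]; exact hm v hv
      have hmpos : 0 < v.abv m := v.abv.pos hm0
      have hδv : ‖algebraMap F v.comp δ‖ < v.abv m ^ 3 := by
        rw [norm_alg, ← h13 v]
        exact hC.2 v hv
      have hu : v.abv m ≤ ‖algebraMap F v.comp (Hey.unif v)‖ := by
        exact le_unif v (hm v hv)
      have hδ1 : ‖algebraMap F v.comp δ‖ <
          ‖algebraMap F v.comp (Hey.unif v)‖ * ‖algebraMap F v.comp m‖ ^ 2 := by
        rw [hmn]
        calc ‖algebraMap F v.comp δ‖ < v.abv m * v.abv m ^ 2 := by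
              rw [← pow_succ']; exact hδv
          _ ≤ _ := mul_le_mul_of_nonneg_right hu (by positivity)
      have hδ2 : ‖algebraMap F v.comp δ‖ < ‖algebraMap F v.comp m‖ ^ 2 := by
        rw [hmn]
        refine hδv.trans_le ?_
        rw [pow_succ]
        exact mul_le_of_le_one_right (by positivity) (hm v hv).le
      have hr' : algebraMap F v.comp r ≠ 0 := (_root_.map_ne_zero _).mpr hr
      have hb' : algebraMap F v.comp b' ≠ 0 := (_root_.map_ne_zero _).mpr b'.ne_zero
      have hδ' : algebraMap F v.comp δ ≠ 0 := (_root_.map_ne_zero _).mpr h11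
      rw [H974.R6.map_a (v := v)] at hnn ⊢
      have hkey : ∃ s f1 f2 : v.comp,
          s ^ 2 * (algebraMap F v.comp δ * (algebraMap F v.comp δ + 4) / 4) +
          algebraMap F v.comp b' * (f1 ^ 2 -
            algebraMap F v.comp δ * (algebraMap F v.comp δ + 4) / 4 * f2 ^ 2) =
            algebraMap F v.comp δ ∧
          ‖s * (algebraMap F v.comp δ + 4) / 2 - 2‖ ≤ ‖algebraMap F v.comp m‖ ^ 2 ∧
          ∃ η : ℝ, 0 < η ∧ ∀ T : v.comp, ‖T - s * (algebraMap F v.comp δ + 4) / 2‖ < η →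
            ∃ x y z w : v.comp,
              x ^ 2 - algebraMap F v.comp δ * (algebraMap F v.comp δ + 4) / 4 * y ^ 2 ≠ 0 ∧
              algebraMap F v.comp r * (x ^ 2 -
                algebraMap F v.comp δ * (algebraMap F v.comp δ + 4) / 4 * y ^ 2) =
                z ^ 2 - (T ^ 2 - 4) * w ^ 2 := by
        by_cases hev : H974.R6.Ev v (algebraMap F v.comp δ * (algebraMap F v.comp δ + 4) / 4)
        · exact H974.R6.near_even h2 hr' hδ' hb' hmc hm1 hδ1 hnn hev
        · exact H974.R6.near_odd h2 hr' hδ' hb' hmc hm1 hδ2 hnn hev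
      obtain ⟨s, f1, f2, e1, e2, η, e3, e4⟩ := hkey
      refine ⟨s, f1, f2, e1, min η (v.abv m ^ 2), lt_min e3 (by positivity), fun T' hT' =>
        ⟨e4 T' (hT'.trans_le (min_le_left _ _)), fun _ => ?_⟩⟩
      have e5 := hT'.trans_le (min_le_right _ _)
      have e6 : T' - 2 = (T' - s * (algebraMap F v.comp δ + 4) / 2) +
          (s * (algebraMap F v.comp δ + 4) / 2 - 2) := by ring
      rw [e6]
      refine (IsUltrametricDist.norm_add_le_max _ _).trans (max_le e5.le ?_)
      rw [hmn] at e2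
      exact e2
    · obtain ⟨s, f1, f2, e1, η, e3, e4⟩ := locT F h2 v δ b' r h11 hδ4 b'.ne_zero hr (by
        rw [← ha]; exact h14 v)
      exact ⟨s, f1, f2, e1, η, e3, fun T' hT' => ⟨e4 T' hT', fun h => absurd h hv⟩⟩)
  refine ⟨φ z, φ k₁, φ k₂, by rw [h5, g1], ?_, ?_, ?_, by rw [h5]; exact g5, by rw [h5]; exact g6,
    by rw [h5, h5]; exact g7, fun v hv => ?_⟩
  · rw [← h8, ← map_mul, h6, h6, g2]
  · rw [← h8, ← map_mul, g3, map_mul]
  · rw [← map_mul, g4, map_mul]
  · have e1 : φ z - 1 = φ (z - 1) := by rw [map_sub, map_one]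
    rw [e1, h5, nrd_sub_one g1]
    have e2 : v.abv (2 - 2 * z.re) = ‖algebraMap F v.comp (2 * z.re) - 2‖ := by
      rw [← map_ofNat (algebraMap F v.comp) 2, ← map_sub, norm_alg, ← v.abv.map_neg]
      congr 1
      ring
    rw [e2]
    exact g8 v hv

theorem dat2H (h2 : (2 : F) ≠ 0) (hA : Aniso a b) {T : Finset (Place F)}
    (hT : ∀ v ∈ T, RamF a b v) {m : F} : Dat2 (CloH a b T m) := by
  intro y hy hy1 hC
  obtain ⟨a', b', φ, δ, t, h5, h6, h7, h8, h9, h10, h11, h12, h13, h14⟩ :=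
    adapted h2 pres hA hy hy1 hC.1
  obtain ⟨v0, hv0⟩ := ram_nonempty h2 hA
  obtain ⟨z, g1, g2, g3, g4⟩ := dat2_pres' h2 locHalf h9 h10 h11 h12 h14
    (ram_finite h2 a b).toFinset ⟨v0, (Set.Finite.mem_toFinset _).mpr hv0⟩ fun v hv => by
      rw [← h13 v]
      exact hC.1 v ((Set.Finite.mem_toFinset _).mp hv)
  have g5 : ∀ v : Place F, RamF a b v → v.abv (nrd (z - 1)) ≤ v.abv (nrd (y - 1)) := by
    intro v hv
    rw [h13 v]
    exact g4 v ((Set.Finite.mem_toFinset _).mpr hv)
  have e1 : φ z - 1 = φ (z - 1) := by rw [map_sub, map_one]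
  refine ⟨φ z, by rw [h5, g1], ?_, ?_, ?_, ?_⟩
  · rw [← h8, ← map_mul, h6, h6, g2]
  · have e1 : y * φ z - cj (φ z) = φ (yt a' b' t * z - cj z) := by
      rw [map_sub φ, map_mul φ, h8, cj_eq (φ z), cj_eq z, h6, map_sub φ, AlgHom.commutes]
    rw [e1]
    exact fun h => g3 (h7 (by rw [h, map_zero]))
  · intro v hv
    rw [e1, h5]
    exact (g5 v hv).trans_lt (hC.1 v hv)
  · intro v hv
    rw [e1, h5]
    exact (g5 v (hT v hv)).trans_lt (hC.2 v hv)

/-- **The elements of norm one which are close to one at the ramified places and of level `m ^ 3`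
at the places of `T` belong to every normal subgroup which contains the commutators with the
elements of level `m ^ 2` at the places of `T`.** -/
theorem mp_lev (h2 : (2 : F) ≠ 0) (hA : Aniso a b) {T : Finset (Place F)}
    (hT : ∀ v ∈ T, RamF a b v) {m : F} (hm0 : m ≠ 0) (hm : ∀ v ∈ T, v.abv m < 1)
    (N : Subgroup (SL1 a b)) [N.Normal]
    (hN : ∀ u z : SL1 a b, (∀ v ∈ T, v.abv (nrd (((z : (Qt a b)ˣ) : Qt a b) - 1)) ≤
      v.abv m ^ 2) → ⁅u, z⁆ ∈ N) (g : SL1 a b)
    (h1 : ∀ v : Place F, RamF a b v → v.abv (nrd (((g : (Qt a b)ˣ) : Qt a b) - 1)) < 1)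
    (h3 : ∀ v ∈ T, v.abv (nrd (((g : (Qt a b)ˣ) : Qt a b) - 1)) < v.abv m ^ 3) : g ∈ N := by
  refine mem_commH (C := CloH a b T m) (E := LevH a b T m) hA ?_ ?_
    (dat1H h2 hA hT hm0 hm) (dat2H h2 hA hT) N hN g ⟨h1, h3⟩
  · intro y _ hy v hv
    refine (hy.2 v hv).le.trans ?_
    rw [pow_succ]
    exact mul_le_of_le_one_right (by positivity) (hm v hv).le
  · intro g z hz hE v hv
    have hz1 : nrd ((g * z * g⁻¹ : (Qt a b)ˣ) : Qt a b) = 1 := by rw [nrd_conj, hz]
    rw [nrd_sub_one hz1, re_conj, ← nrd_sub_one hz]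
    exact hE v hv

end main

end Vale.Agent.P011.H704.R6
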