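import Vale.Agent.P011.H704.R6.Apx
import Vale.Agent.P011.H465.R6B

/-!
The elements `z` of norm one such that `z` and `y * z` have the same trace: existence and weak
approximation of the trace of `z`, for `y = t + i`.
-/

set_option linter.unusedSectionVars false

namespace Vale.Agent.P011.H704.R6

open Vale.Agent.P011.MPQ Vale.Agent.P011.H738 Vale.Agent.P011.H271

section alg

variable {F : Type} [Field F] {a b : Fˣ}

/-- The element `t + i`. -/
def yt (a b : Fˣ) (t : F) : Qt a b := ⟨t, 1, 0, 0⟩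

theorem nrd_yt {t : F} (hat : (a : F) = t ^ 2 - 1) : nrd (yt a b t) = 1 := by
  simp only [nrd, yt, hat]
  ring

theorem zt_aux {δ t A : F} (hδ : δ = 2 * t - 2) (hδ0 : δ ≠ 0) (hat : A = t ^ 2 - 1) (x : F) :
    (-δ)⁻¹ * (-A * x) * 4 = (δ + 4) * x := by
  have h1 : δ⁻¹ * δ = 1 := inv_mul_cancel₀ hδ0
  have h2 : A * 4 = δ * (δ + 4) := by rw [hat, hδ]; ring
  rw [neg_inv.symm]
  linear_combination (δ⁻¹ * x) * h2 + ((δ + 4) * x) * h1

/-- The element `z` attached to a pure quaternion `p`. -/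
def zt (δ t : F) (p : Qt a b) : Qt a b := (-δ)⁻¹ • (cj (yt a b t - 1) * p)

theorem zt_spec {δ t : F} (hδ : δ = 2 * t - 2) (hδ0 : δ ≠ 0) (hat : (a : F) = t ^ 2 - 1)
    {p : Qt a b} (hp : p.re = 0) (hn : nrd p = -δ) :
    nrd (zt δ t p) = 1 ∧ (yt a b t * zt δ t p).re = (zt δ t p).re ∧
      (zt δ t p).re * 4 = (δ + 4) * p.imI := by
  have hn1 : nrd (yt a b t - 1) = -δ := by
    simp only [nrd, yt, QuaternionAlgebra.re_sub, QuaternionAlgebra.imI_sub,
      QuaternionAlgebra.imJ_sub, QuaternionAlgebra.imK_sub, QuaternionAlgebra.re_one,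
      QuaternionAlgebra.imI_one, QuaternionAlgebra.imJ_one, QuaternionAlgebra.imK_one, hat, hδ]
    ring
  have hδ' : -δ ≠ 0 := neg_ne_zero.mpr hδ0
  have hnsmul : ∀ (c : F) (x : Qt a b), nrd (c • x) = c ^ 2 * nrd x := by
    intro c x
    simp only [nrd, QuaternionAlgebra.re_smul, QuaternionAlgebra.imI_smul,
      QuaternionAlgebra.imJ_smul, QuaternionAlgebra.imK_smul, smul_eq_mul]
    ring
  have h1 : (yt a b t - 1) * zt δ t p = p := by
    unfold zt
    rw [mul_smul_comm, ← mul_assoc, mul_cj, hn1, ← Algebra.smul_def, smul_smul,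
      inv_mul_cancel₀ hδ', one_smul]
  refine ⟨?_, ?_, ?_⟩
  · unfold zt
    rw [hnsmul, nrd_mul, nrd_cj, hn1, hn]
    field_simp
  · have h2 : yt a b t * zt δ t p = (yt a b t - 1) * zt δ t p + zt δ t p := by
      rw [sub_mul, one_mul, sub_add_cancel]
    rw [h2, h1, QuaternionAlgebra.re_add, hp, zero_add]
  · unfold zt
    rw [QuaternionAlgebra.re_smul, smul_eq_mul]
    have h3 : (cj (yt a b t - 1) * p).re = -(a : F) * p.imI := by
      simp only [QuaternionAlgebra.re_mul, cj, yt, QuaternionAlgebra.re_sub,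
        QuaternionAlgebra.imI_sub, QuaternionAlgebra.imJ_sub, QuaternionAlgebra.imK_sub,
        QuaternionAlgebra.re_one, QuaternionAlgebra.imI_one, QuaternionAlgebra.imJ_one,
        QuaternionAlgebra.imK_one, hp]
      ring
    rw [h3]
    exact zt_aux hδ hδ0 hat p.imI

end alg

section glob

theorem E_aux {L : Type*} [Field L] {A B δ : L} (h2 : (2 : L) ≠ 0) (hB : B ≠ 0)
    (hA : A * 4 = δ * (δ + 4)) : B * δ * -(A / B) = 0 ^ 2 - (δ + 4) * (δ / 2) ^ 2 := by
  have h1 : B * B⁻¹ = 1 := mul_inv_cancel₀ hB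
  have h3 : (2 : L)⁻¹ * 2 = 1 := inv_mul_cancel₀ h2
  have h4 : (2 : L)⁻¹ * 2⁻¹ * 4 = 1 := by linear_combination ((2 : L)⁻¹ * 2 + 1) * h3
  rw [div_eq_mul_inv, div_eq_mul_inv]
  linear_combination (-(A * δ)) * h1 + (A * δ) * h4 - (δ * (2 : L)⁻¹ * 2⁻¹) * hA

variable {F : Type} [Field F] [GFF F]

theorem two_ne_comp (h2 : (2 : F) ≠ 0) (v : Place F) : (2 : v.comp) ≠ 0 := by
  rw [← map_ofNat (algebraMap F v.comp) 2]
  exact (map_ne_zero _).mpr h2

/-- The field generated by a square root of `δ` embeds in the quaternion algebra. -/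
theorem exists_p (h2 : (2 : F) ≠ 0) {a b : Fˣ} (hA : Aniso a b) {δ : F} (hδ : δ ≠ 0)
    (ha : (a : F) = δ * (δ + 4) / 4)
    (hloc : ∀ v : Place F, v.abv δ < 1 ∨ ∃ x y : v.comp,
      x ^ 2 - algebraMap F v.comp a * y ^ 2 = algebraMap F v.comp b) :
    ∃ p : Qt a b, p.re = 0 ∧ nrd p = -δ := by
  have h4 : (4 : F) ≠ 0 := by
    have : (4 : F) = 2 * 2 := by norm_num
    rw [this]
    exact mul_ne_zero h2 h2
  have hδ4 : δ + 4 ≠ 0 := by
    intro h
    have := a.ne_zero
    rw [ha, h, mul_zero, zero_div] at this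
    exact this rfl
  have ha0 : (a : F) ≠ 0 := a.ne_zero
  have hb0 : (b : F) ≠ 0 := b.ne_zero
  have key : ∀ P : Place F, ∃ x y z w : P.comp, x ^ 2 - algebraMap F P.comp a * y ^ 2 ≠ 0 ∧
      algebraMap F P.comp (b * δ) * (x ^ 2 - algebraMap F P.comp a * y ^ 2) =
        z ^ 2 - algebraMap F P.comp (δ + 4) * w ^ 2 := by
    intro P
    have h2' := two_ne_comp h2 P
    have h4' : (4 : P.comp) ≠ 0 := by
      rw [← map_ofNat (algebraMap F P.comp) 4]
      exact (map_ne_zero _).mpr h4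
    have ha' : algebraMap F P.comp a ≠ 0 := (map_ne_zero _).mpr ha0
    have hb' : algebraMap F P.comp b ≠ 0 := (map_ne_zero _).mpr hb0
    have haP : algebraMap F P.comp a * 4 = algebraMap F P.comp δ * (algebraMap F P.comp δ + 4) := by
      rw [ha, map_div₀, map_mul, map_add, map_ofNat]
      field_simp
    rcases hloc P with h | ⟨X, Y, hXY⟩
    · -- `δ + 4` is a square
      have h5 : P.abv ((δ + 4) / 4 - 1) < 1 := by
        have h6 : (δ + 4) / 4 - 1 = δ / 4 := by field_simp; ring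
        have h7 : P.abv 4 = 1 := by
          have : (4 : F) = 2 * 2 := by norm_num
          rw [this, map_mul, H929.FF.abv_two h2, mul_one]
        rw [h6, map_div₀, h7, div_one]
        exact h
      obtain ⟨β, hβ⟩ := H929.FF.exists_sqrt h2 P h5
      have hβ2 : (2 * β) ^ 2 = algebraMap F P.comp (δ + 4) := by
        rw [mul_pow, hβ]
        simp only [map_div₀, map_add, map_ofNat]
        field_simp
        ring
      obtain ⟨z, w, hzw⟩ := H465.R6B.rep_of_square h2' ((map_ne_zero (algebraMap F P.comp)).mpr hδ4)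
        ⟨2 * β, hβ2⟩ (c := algebraMap F P.comp (b * δ))
      exact ⟨1, 0, z, w, by simp, by rw [hzw]; ring⟩
    · refine ⟨algebraMap F P.comp a * Y / algebraMap F P.comp b, X / algebraMap F P.comp b, 0,
        algebraMap F P.comp δ / 2, ?_, ?_⟩
      · have h5 : (algebraMap F P.comp a * Y / algebraMap F P.comp b) ^ 2 -
            algebraMap F P.comp a * (X / algebraMap F P.comp b) ^ 2 =
            -(algebraMap F P.comp a / algebraMap F P.comp b) := by
          field_simp
          linear_combination -hXY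
        rw [h5]
        exact neg_ne_zero.mpr (div_ne_zero ha' hb')
      · have h5 : (algebraMap F P.comp a * Y / algebraMap F P.comp b) ^ 2 -
            algebraMap F P.comp a * (X / algebraMap F P.comp b) ^ 2 =
            -(algebraMap F P.comp a / algebraMap F P.comp b) := by
          field_simp
          linear_combination -hXY
        rw [h5, map_mul, map_add, map_ofNat]
        exact E_aux h2' hb' haP
  obtain ⟨x, y, z, w, h5, h6, h7⟩ := H465.R6B.hasse2 h2 ha0 hδ4 (mul_ne_zero hb0 hδ) key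
  have hz : z ≠ 0 := by
    rintro rfl
    have h8 : nrd (⟨0, 2 * w / δ, x, y⟩ : Qt a b) = 0 := by
      rw [nrd_pure rfl]
      have h10 : (a : F) * 4 = δ * (δ + 4) := by rw [ha]; field_simp
      have h9 : (b : F) * (x ^ 2 - a * y ^ 2) * δ ^ 2 = -(4 * a * w ^ 2) := by
        linear_combination δ * h7 + w ^ 2 * h10
      change -((a : F) * (2 * w / δ) ^ 2 + b * x ^ 2 - a * b * y ^ 2) = 0
      field_simp
      linear_combination -h9
    have h9 := hA _ h8
    have hx : x = 0 := congrArg QuaternionAlgebra.imJ h9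
    have hy : y = 0 := congrArg QuaternionAlgebra.imK h9
    apply h5
    rw [hx, hy]
    ring
  refine ⟨⟨0, 2 * w / z, x * δ / z, y * δ / z⟩, rfl, ?_⟩
  rw [nrd_pure rfl]
  change -((a : F) * (2 * w / z) ^ 2 + b * (x * δ / z) ^ 2 - a * b * (y * δ / z) ^ 2) = -δ
  have h9 : (a : F) * 4 = δ * (δ + 4) := by rw [ha]; field_simp
  field_simp
  linear_combination (-w ^ 2) * h9 + (-δ) * h7

/-- Weak approximation for the traces. -/
theorem exists_z (h2 : (2 : F) ≠ 0) {a b : Fˣ} {t δ : F} (hδ : δ = 2 * t - 2) (hδ0 : δ ≠ 0)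
    (hat : (a : F) = t ^ 2 - 1) {p : Qt a b} (hp : p.re = 0) (hn : nrd p = -δ)
    (S : Finset (Place F)) (s f1 f2 : ∀ v : Place F, v.comp)
    (hs : ∀ v ∈ S, s v ^ 2 * algebraMap F v.comp (δ * (δ + 4) / 4) + algebraMap F v.comp b *
      (f1 v ^ 2 - algebraMap F v.comp (δ * (δ + 4) / 4) * f2 v ^ 2) = algebraMap F v.comp δ)
    (ε : Place F → ℝ) (hε : ∀ v, 0 < ε v) :
    ∃ z : Qt a b, nrd z = 1 ∧ (yt a b t * z).re = z.re ∧
      ∀ v ∈ S, ‖algebraMap F v.comp (2 * z.re) - s v * (algebraMap F v.comp δ + 4) / 2‖ < ε v := by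
  have h4 : (4 : F) ≠ 0 := by
    have : (4 : F) = 2 * 2 := by norm_num
    rw [this]
    exact mul_ne_zero h2 h2
  have ha : (a : F) = δ * (δ + 4) / 4 := by
    rw [hat, hδ]
    field_simp
    ring
  have hn0 : nrd p ≠ 0 := by rw [hn]; exact neg_ne_zero.mpr hδ0
  rcases S.eq_empty_or_nonempty with rfl | hS
  · obtain ⟨h5, h6, -⟩ := zt_spec hδ hδ0 hat hp hn
    exact ⟨zt δ t p, h5, h6, fun v hv => absurd hv (Finset.notMem_empty v)⟩
  -- a common bound
  let c : Place F → ℝ := fun v => ‖(algebraMap F v.comp δ + 4) / 2‖ + 1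
  have hc : ∀ v, 0 < c v := fun v => by positivity
  let ε0 : ℝ := S.inf' hS fun v => ε v / c v
  have hε0 : 0 < ε0 := (Finset.lt_inf'_iff hS).mpr fun v _ => div_pos (hε v) (hc v)
  obtain ⟨g, hg, hgv⟩ := approx_conj h2 hp hn0 S (fun v => ⟨0, s v, f1 v, f2 v⟩) (by
    intro v hv
    refine ⟨rfl, ?_⟩
    rw [nrd_pure rfl, hn, map_neg, ← hs v hv, ← ha]
    simp only [up, Units.coe_map, MonoidHom.coe_coe]
    ring) hε0
  set q : Qt a b := (nrd g)⁻¹ • (g * p * cj g) with hq
  have hqr : q.re = 0 := by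
    rw [hq, QuaternionAlgebra.re_smul]
    have h5 : (g * p * cj g).re = 0 := by
      have h6 : (g * p * cj g).re = nrd g * p.re := by
        simp only [QuaternionAlgebra.re_mul, QuaternionAlgebra.imI_mul,
          QuaternionAlgebra.imJ_mul, QuaternionAlgebra.imK_mul, nrd, cj]
        ring
      rw [h6, hp, mul_zero]
    rw [h5, smul_zero]
  have hqn : nrd q = -δ := by
    have hnsmul : ∀ (c : F) (x : Qt a b), nrd (c • x) = c ^ 2 * nrd x := by
      intro c x
      simp only [nrd, QuaternionAlgebra.re_smul, QuaternionAlgebra.imI_smul,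
        QuaternionAlgebra.imJ_smul, QuaternionAlgebra.imK_smul, smul_eq_mul]
      ring
    rw [hq, hnsmul, nrd_mul, nrd_mul, nrd_cj, hn]
    field_simp
  have hqi : q.imI = cI p g := by
    rw [hq, QuaternionAlgebra.imI_smul, smul_eq_mul, cI, div_eq_inv_mul]
  obtain ⟨h5, h6, h7⟩ := zt_spec hδ hδ0 hat hqr hqn
  refine ⟨zt δ t q, h5, h6, fun v hv => ?_⟩
  have h8 : algebraMap F v.comp (2 * (zt δ t q).re) - s v * (algebraMap F v.comp δ + 4) / 2 =
      (algebraMap F v.comp δ + 4) / 2 * (algebraMap F v.comp (cI p g) - s v) := by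
    have h2' := two_ne_comp h2 v
    have h9 : 2 * (zt δ t q).re = (δ + 4) / 2 * cI p g := by
      rw [← hqi]
      field_simp
      linear_combination h7
    rw [h9, map_mul, map_div₀, map_add, map_ofNat, map_ofNat]
    ring
  rw [h8, norm_mul]
  have h9 : ‖algebraMap F v.comp (cI p g) - s v‖ < ε0 := hgv v hv
  have h10 : ε0 ≤ ε v / c v := Finset.inf'_le _ hv
  have h11 : ‖(algebraMap F v.comp δ + 4) / 2‖ ≤ c v := by
    simp only [c]
    linarith
  calc ‖(algebraMap F v.comp δ + 4) / 2‖ * ‖algebraMap F v.comp (cI p g) - s v‖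
      ≤ c v * ‖algebraMap F v.comp (cI p g) - s v‖ :=
        mul_le_mul_of_nonneg_right h11 (norm_nonneg _)
    _ < c v * (ε v / c v) := mul_lt_mul_of_pos_left (h9.trans_le h10) (hc v)
    _ = ε v := mul_div_cancel₀ _ (hc v).ne'

end glob

end Vale.Agent.P011.H704.R6
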